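import Vale.Agent.P228.Invariance

/-!
Comparison of signed counts of regular zeros of two continuous maps on a closed ball.
-/

namespace Vale.Agent.P228

open MeasureTheory Metric Set Function Filter
open scoped Topology

noncomputable section

variable {E : Type*} [NormedAddCommGroup E] [NormedSpace ℝ E] [FiniteDimensional ℝ E]
  [MeasurableSpace E] [BorelSpace E]

/-- `f` has an invertible derivative at `x`. -/
def RegularAt (f : E → E) (x : E) : Prop :=
  ∃ L : E ≃L[ℝ] E, HasFDerivAt f (L : E →L[ℝ] E) x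

/-- The sign of the Jacobian determinant. -/
def dsign (f : E → E) (x : E) : ℤ := if 0 < (fderiv ℝ f x).det then 1 else -1

omit [FiniteDimensional ℝ E] [MeasurableSpace E] [BorelSpace E] in
lemma det_equiv_ne_zero (L : E ≃L[ℝ] E) : (L : E →L[ℝ] E).det ≠ 0 :=
  L.toLinearEquiv.isUnit_det'.ne_zero

lemma integral_comp_affine (μ : Measure E) [μ.IsAddHaarMeasure] (L : E ≃L[ℝ] E) (x : E)
    (φ : E → ℝ) :
    ∫ z, φ (L (z - x)) ∂μ = |(L : E →L[ℝ] E).det|⁻¹ * ∫ z, φ z ∂μ := by
  have h := integral_image_eq_integral_abs_det_fderiv_smul μ (E := E) (s := univ)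
    MeasurableSet.univ (f := fun z => L (z - x)) (f' := fun _ => (L : E →L[ℝ] E))
    (fun z _ => ((L : E →L[ℝ] E).hasFDerivAt.comp z
      ((hasFDerivAt_id z).sub_const x)).hasFDerivWithinAt)
    ((L.injective.comp sub_left_injective).injOn) φ
  have himg : (fun z => L (z - x)) '' univ = univ := by
    rw [image_univ]
    exact (L.surjective.comp fun w => ⟨w + x, by simp⟩).range_eq
  rw [himg, Measure.restrict_univ] at h
  simp only [smul_eq_mul, integral_const_mul] at h
  rw [h, ← mul_assoc, inv_mul_cancel₀ (abs_ne_zero.2 (det_equiv_ne_zero L)), one_mul]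

/-- A C^1 approximation that is affine near the (regular) zeros and has no other small values. -/
lemma exists_adapted (μ : Measure E) [μ.IsAddHaarMeasure] {c : E} {R : ℝ} {f : E → E}
    (hf : ContinuousOn f (closedBall c R)) (P : Finset E)
    (hP : ∀ x, x ∈ P ↔ x ∈ closedBall c R ∧ f x = 0) (hin : ∀ x ∈ P, x ∈ ball c R)
    (hreg : ∀ x ∈ P, RegularAt f x) {ε : ℝ} (hε : 0 < ε) :
    ∃ F : E → E, ContDiff ℝ 1 F ∧ (∀ z ∈ closedBall c R, ‖F z - f z‖ ≤ ε) ∧
      ∃ η > 0, ∀ φ : E → ℝ, Continuous φ → (∀ w, η ≤ ‖w‖ → φ w = 0) →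
        ∫ z in closedBall c R, φ (F z) * (fderiv ℝ F z).det ∂μ
          = ((∑ x ∈ P, dsign f x : ℤ) : ℝ) * ∫ w, φ w ∂μ := by
  classical
  choose L hL using hreg
  let T : {x // x ∈ P} → E ≃L[ℝ] E := fun x => L x.1 x.2
  have hT : ∀ x : {x // x ∈ P}, HasFDerivAt f (T x : E →L[ℝ] E) x.1 := fun x => hL x.1 x.2
  obtain ⟨C, hC1, hC⟩ : ∃ C : ℝ, 1 ≤ C ∧ ∀ x v, ‖v‖ ≤ C * ‖T x v‖ := by
    refine ⟨1 + ∑ x, ‖((T x).symm : E →L[ℝ] E)‖, le_add_of_nonneg_right
      (Finset.sum_nonneg fun _ _ => norm_nonneg _), fun x v => ?_⟩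
    calc ‖v‖ = ‖((T x).symm : E →L[ℝ] E) (T x v)‖ := by simp
      _ ≤ ‖((T x).symm : E →L[ℝ] E)‖ * ‖T x v‖ := ContinuousLinearMap.le_opNorm _ _
      _ ≤ _ := by
        gcongr
        exact (Finset.single_le_sum (fun y _ => norm_nonneg ((T y).symm : E →L[ℝ] E))
          (Finset.mem_univ x)).trans (le_add_of_nonneg_left zero_le_one)
  have hC0 : 0 < C := by linarith
  obtain ⟨r, hr, hrε, hsmall, hsub, hsep⟩ : ∃ r > 0, r ≤ ε ∧
      (∀ x : {x // x ∈ P}, ∀ z ∈ closedBall (x : E) (2 * r),
        ‖f z - T x (z - x)‖ ≤ (4 * C)⁻¹ * ‖z - x‖) ∧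
      (∀ x : {x // x ∈ P}, closedBall (x : E) (2 * r) ⊆ ball c R) ∧
      (∀ x y : {x // x ∈ P}, x ≠ y → 5 * r < dist (x : E) y) := by
    have e1 : ∀ᶠ r in 𝓝 (0 : ℝ), ∀ x : {x // x ∈ P}, ∀ z ∈ closedBall (x : E) r,
        z ∈ ball c R ∧ ‖f z - T x (z - x)‖ ≤ (4 * C)⁻¹ * ‖z - x‖ := by
      refine eventually_all.2 fun x => ?_
      have h0 : f x = 0 := ((hP x).1 x.2).2
      have hev : ∀ᶠ z in 𝓝 (x : E),
          z ∈ ball c R ∧ ‖f z - T x (z - x)‖ ≤ (4 * C)⁻¹ * ‖z - x‖ := by
        filter_upwards [isOpen_ball.mem_nhds (hin x x.2),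
          (hT x).isLittleO.def (show (0 : ℝ) < (4 * C)⁻¹ by positivity)] with z hz hz'
        exact ⟨hz, by simpa [h0] using hz'⟩
      obtain ⟨δ, hδ, hball⟩ := Metric.eventually_nhds_iff.1 hev
      filter_upwards [gt_mem_nhds hδ] with r hr z hz
      exact hball (lt_of_le_of_lt (mem_closedBall.1 hz) hr)
    have e2 : ∀ᶠ r in 𝓝 (0 : ℝ), ∀ x y : {x // x ∈ P}, x ≠ y → r < dist (x : E) y := by
      refine eventually_all.2 fun x => eventually_all.2 fun y => ?_
      by_cases hxy : x = y
      · exact Eventually.of_forall fun r h => absurd hxy h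
      · filter_upwards [gt_mem_nhds (dist_pos.2 (fun h => hxy (Subtype.ext h)))] with r hr _
        exact hr
    obtain ⟨δ, hδ, hball⟩ := Metric.eventually_nhds_iff.1 ((e1.and e2))
    have hrpos : 0 < min ε (δ / 6) := lt_min hε (by linarith)
    have h2 : dist (2 * min ε (δ / 6)) 0 < δ := by
      rw [Real.dist_0_eq_abs, abs_of_pos (by linarith)]
      linarith [min_le_right ε (δ / 6)]
    have h5 : dist (5 * min ε (δ / 6)) 0 < δ := by
      rw [Real.dist_0_eq_abs, abs_of_pos (by linarith)]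
      linarith [min_le_right ε (δ / 6)]
    exact ⟨_, hrpos, min_le_left _ _, fun x z hz => ((hball h2).1 x z hz).2,
      fun x z hz => ((hball h2).1 x z hz).1, fun x y h => (hball h5).2 x y h⟩
  obtain ⟨m, hm, hmf⟩ : ∃ m > 0,
      ∀ z ∈ closedBall c R, (∀ x : {x // x ∈ P}, 2 * r ≤ dist z x) → m ≤ ‖f z‖ := by
    have hK : IsCompact {z ∈ closedBall c R | ∀ x : {x // x ∈ P}, 2 * r ≤ dist z x} := by
      have hcl : IsClosed {z : E | ∀ x : {x // x ∈ P}, 2 * r ≤ dist z x} := by
        have : {z : E | ∀ x : {x // x ∈ P}, 2 * r ≤ dist z x}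
            = ⋂ x : {x // x ∈ P}, {z : E | 2 * r ≤ dist z x} := by
          ext z; rw [mem_iInter]; exact Iff.rfl
        rw [this]
        exact isClosed_iInter fun x => isClosed_le continuous_const
          (continuous_id.dist continuous_const)
      exact (isCompact_closedBall c R).inter_right hcl
    obtain ⟨m, hm, h⟩ := hK.exists_forall_le' (f := fun z => ‖f z‖) (a := 0)
      (hf.norm.mono fun z hz => hz.1) (by
        intro z hz
        refine norm_pos_iff.2 fun h0 => ?_
        have := hz.2 ⟨z, (hP z).2 ⟨hz.1, h0⟩⟩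
        simp only [dist_self] at this
        linarith)
    exact ⟨m, hm, fun z hz hx => h z ⟨hz, hx⟩⟩
  obtain ⟨g, hg⟩ := (⟨_, hf.domRestrict⟩ : C(closedBall c R, E)).exists_restrict_eq
    isClosed_closedBall
  have hgf : ∀ z ∈ closedBall c R, g z = f z := fun z hz =>
    congrArg (fun u : C(closedBall c R, E) => u ⟨z, hz⟩) hg
  set ε' := min (ε / 2) (min (r / (4 * C)) (m / 2)) with hε'
  have hε'0 : 0 < ε' := by positivity
  obtain ⟨G, hG, hGg, -⟩ := g.continuous.exists_contDiff_approx 1 (ε := fun _ => ε')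
    continuous_const fun _ => hε'0
  have hGf : ∀ z ∈ closedBall c R, ‖G z - f z‖ ≤ ε' := fun z hz => by
    rw [← hgf z hz, ← dist_eq_norm]; exact (hGg z).le
  let β : (x : {x // x ∈ P}) → ContDiffBump (x : E) := fun x => ⟨r, 2 * r, hr, by linarith⟩
  let F : E → E := fun z => G z + ∑ x, β x z • (T x (z - x) - G z)
  have hF : ContDiff ℝ 1 F := by
    refine hG.add (ContDiff.sum fun x _ => (β x).contDiff.smul ?_)
    exact ((T x).contDiff.comp (contDiff_id.sub contDiff_const)).sub hG
  have hin' : ∀ (x : {x // x ∈ P}) (z : E), dist z x ≤ 2 * r →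
      F z = G z + β x z • (T x (z - x) - G z) := by
    intro x z hz
    change _ + _ = _
    rw [Finset.sum_eq_single x]
    · intro y _ hy
      rw [(β y).zero_of_le_dist, zero_smul]
      change 2 * r ≤ _
      linarith [hsep y x hy, dist_triangle (y : E) z x, dist_comm (y : E) z]
    · simp
  have hout : ∀ z : E, (∀ x : {x // x ∈ P}, 2 * r ≤ dist z x) → F z = G z := by
    intro z hz
    change _ + _ = _
    rw [Finset.sum_eq_zero fun x _ => by rw [(β x).zero_of_le_dist (hz x), zero_smul], add_zero]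
  have hcore : ∀ (x : {x // x ∈ P}) (z : E), dist z x ≤ r → F z = T x (z - x) := by
    intro x z hz
    rw [hin' x z (by linarith), (β x).one_of_mem_closedBall (mem_closedBall.2 hz), one_smul]
    abel
  have hnear : ∀ (x : {x // x ∈ P}) (z : E), dist z x ≤ 2 * r →
      ‖F z - T x (z - x)‖ ≤ ε' + (4 * C)⁻¹ * ‖z - x‖ := by
    intro x z hz
    have hzb : z ∈ closedBall c R := ball_subset_closedBall (hsub x (mem_closedBall.2 hz))
    have : F z - T x (z - x) = (1 - β x z) • ((G z - f z) + (f z - T x (z - x))) := by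
      rw [hin' x z hz]; simp only [smul_sub, sub_smul, smul_add, one_smul]; abel
    rw [this, norm_smul, Real.norm_eq_abs, abs_of_nonneg (by linarith [(β x).le_one (x := z)])]
    refine (mul_le_of_le_one_left (norm_nonneg _) (by linarith [(β x).nonneg' z])).trans ?_
    exact (norm_add_le _ _).trans (add_le_add (hGf z hzb) (hsmall x z (mem_closedBall.2 hz)))
  have hrC : r / (4 * C) ≤ r / 4 := by gcongr; linarith
  refine ⟨F, hF, ?_, min (r / (2 * C)) (m / 2), by positivity, ?_⟩
  · intro z hz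
    by_cases h : ∀ x : {x // x ∈ P}, 2 * r ≤ dist z x
    · rw [hout z h]; exact (hGf z hz).trans ((min_le_left _ _).trans (by linarith))
    · push Not at h
      obtain ⟨x, hx⟩ := h
      have h1 : F z - f z = (1 - β x z) • (G z - f z) + β x z • (T x (z - x) - f z) := by
        rw [hin' x z hx.le]; simp only [smul_sub, sub_smul, one_smul]; abel
      rw [h1]
      have hb0 : 0 ≤ β x z := (β x).nonneg' z
      have hb1 : β x z ≤ 1 := (β x).le_one
      have h2 : ‖G z - f z‖ ≤ ε / 2 := (hGf z hz).trans (min_le_left _ _)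
      have h3 : ‖T x (z - x) - f z‖ ≤ ε / 2 := by
        rw [norm_sub_rev]
        refine (hsmall x z (mem_closedBall.2 hx.le)).trans ?_
        rw [← dist_eq_norm]
        calc (4 * C)⁻¹ * dist z x ≤ 4⁻¹ * (2 * r) := by
              gcongr; linarith
          _ ≤ ε / 2 := by linarith
      calc _ ≤ _ := norm_add_le _ _
        _ ≤ (1 - β x z) * (ε / 2) + β x z * (ε / 2) := by
          rw [norm_smul, norm_smul, Real.norm_eq_abs, Real.norm_eq_abs,
            abs_of_nonneg (by linarith), abs_of_nonneg hb0]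
          gcongr
        _ ≤ ε := by linarith
  intro φ hφc hφ
  have hlarge : ∀ (x : {x // x ∈ P}) (z : E), r ≤ dist z x → φ (T x (z - x)) = 0 := by
    intro x z hz
    apply hφ
    refine (min_le_left _ _).trans ?_
    have := hC x (z - x)
    rw [← dist_eq_norm] at this
    rw [div_le_iff₀ (by positivity)]
    nlinarith [norm_nonneg (T x (z - x))]
  have hFbig : ∀ z ∈ closedBall c R, (∀ x : {x // x ∈ P}, r ≤ dist z x) → φ (F z) = 0 := by
    intro z hz h
    apply hφ
    by_cases h2 : ∀ x : {x // x ∈ P}, 2 * r ≤ dist z x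
    · rw [hout z h2]
      refine (min_le_right _ _).trans ?_
      have := hmf z hz h2
      have := hGf z hz
      have := norm_le_norm_add_norm_sub' (f z) (G z)
      rw [norm_sub_rev (f z)] at this
      have : ε' ≤ m / 2 := (min_le_right _ _).trans (min_le_right _ _)
      linarith
    · push Not at h2
      obtain ⟨x, hx⟩ := h2
      refine (min_le_left _ _).trans ?_
      have h3 := hnear x z hx.le
      have h4 := hC x (z - x)
      have h5 : r ≤ ‖z - (x : E)‖ := by rw [← dist_eq_norm]; exact h x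
      have h6 : ε' ≤ r / (4 * C) := (min_le_right _ _).trans (min_le_left _ _)
      have h7 := norm_le_norm_add_norm_sub' (T x (z - x)) (F z)
      rw [norm_sub_rev (T x (z - x))] at h7
      have h8 : ‖z - (x : E)‖ / C ≤ ‖T x (z - x)‖ := by
        rw [div_le_iff₀ hC0]; linarith
      have e1 : r / (4 * C) = r / C / 4 := by ring
      have e2 : r / (2 * C) = r / C / 2 := by ring
      have e3 : (4 * C)⁻¹ * ‖z - (x : E)‖ = ‖z - (x : E)‖ / C / 4 := by ring
      have h9 : r / C ≤ ‖z - (x : E)‖ / C := by gcongr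
      linarith
  have hpt : ∀ z ∈ closedBall c R, φ (F z) * (fderiv ℝ F z).det
      = ∑ x, φ (T x (z - x)) * (T x : E →L[ℝ] E).det := by
    intro z hz
    by_cases h : ∀ x : {x // x ∈ P}, r ≤ dist z x
    · rw [hFbig z hz h, zero_mul, Finset.sum_eq_zero fun x _ => by rw [hlarge x z (h x), zero_mul]]
    · push Not at h
      obtain ⟨x, hx⟩ := h
      rw [Finset.sum_eq_single x]
      · have hev : F =ᶠ[𝓝 z] fun w => T x (w - x) := by
          filter_upwards [isOpen_ball.mem_nhds (mem_ball.2 hx)] with w hw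
          exact hcore x w (mem_ball.1 hw).le
        rw [hcore x z hx.le, hev.fderiv_eq]
        have hd : HasFDerivAt (fun w => T x (w - x)) (T x : E →L[ℝ] E) z :=
          (T x : E →L[ℝ] E).hasFDerivAt.comp z ((hasFDerivAt_id z).sub_const (x : E))
        rw [hd.fderiv]
      · intro y _ hy
        rw [hlarge y z, zero_mul]
        linarith [hsep y x hy, dist_triangle (y : E) z x, dist_comm (y : E) z]
      · simp
  have hcont : ∀ x : {x // x ∈ P}, Continuous fun z => φ (T x (z - x)) * (T x : E →L[ℝ] E).det :=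
    fun x => (hφc.comp ((T x).continuous.comp (continuous_id.sub continuous_const))).mul
      continuous_const
  rw [setIntegral_congr_fun measurableSet_closedBall hpt, integral_finsetSum _
    fun x _ => (hcont x).continuousOn.integrableOn_compact (isCompact_closedBall c R),
    Int.cast_sum, Finset.sum_mul, ← P.sum_coe_sort]
  refine Finset.sum_congr rfl fun x _ => ?_
  rw [setIntegral_eq_integral_of_forall_compl_eq_zero, integral_mul_const, integral_comp_affine]
  · have hd : fderiv ℝ f x = (T x : E →L[ℝ] E) := (hT x).fderiv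
    simp only [dsign, hd]
    have hne := det_equiv_ne_zero (T x)
    rcases lt_or_gt_of_ne hne with h | h
    · rw [if_neg (not_lt.2 h.le), abs_of_neg h]; push_cast; field_simp
    · rw [if_pos h, abs_of_pos h]; push_cast; field_simp
  · intro z hz
    rw [hlarge x z, zero_mul]
    by_contra h
    push Not at h
    exact hz (ball_subset_closedBall (hsub x (mem_closedBall.2 (by linarith))))

/-- If two continuous maps of a closed ball are linearly homotopic on the sphere without
vanishing there, then their signed numbers of regular zeros agree. -/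
theorem degree_compare {c : E} {R : ℝ} {f₁ f₂ : E → E}
    (h₁ : ContinuousOn f₁ (closedBall c R)) (h₂ : ContinuousOn f₂ (closedBall c R))
    (P₁ P₂ : Finset E)
    (hP₁ : ∀ x, x ∈ P₁ ↔ x ∈ closedBall c R ∧ f₁ x = 0)
    (hP₂ : ∀ x, x ∈ P₂ ↔ x ∈ closedBall c R ∧ f₂ x = 0)
    (hr₁ : ∀ x ∈ P₁, RegularAt f₁ x) (hr₂ : ∀ x ∈ P₂, RegularAt f₂ x)
    (hseg : ∀ w, dist w c = R → ∀ t ∈ Icc (0 : ℝ) 1, (1 - t) • f₁ w + t • f₂ w ≠ 0) :
    ∑ x ∈ P₁, dsign f₁ x = ∑ x ∈ P₂, dsign f₂ x := by
  let μ : Measure E := Measure.addHaar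
  have hin₁ : ∀ x ∈ P₁, x ∈ ball c R := fun x hx => by
    refine mem_ball.2 (lt_of_le_of_ne (mem_closedBall.1 ((hP₁ x).1 hx).1) fun h => ?_)
    exact hseg x h 0 (left_mem_Icc.2 zero_le_one) (by simp [((hP₁ x).1 hx).2])
  have hin₂ : ∀ x ∈ P₂, x ∈ ball c R := fun x hx => by
    refine mem_ball.2 (lt_of_le_of_ne (mem_closedBall.1 ((hP₂ x).1 hx).1) fun h => ?_)
    exact hseg x h 1 (right_mem_Icc.2 zero_le_one) (by simp [((hP₂ x).1 hx).2])
  rcases lt_or_ge R 0 with hR | hR
  · have e₁ : P₁ = ∅ := Finset.eq_empty_of_forall_notMem fun x hx => by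
      have := (hP₁ x).1 hx; rw [closedBall_eq_empty.2 hR] at this; exact this.1
    have e₂ : P₂ = ∅ := Finset.eq_empty_of_forall_notMem fun x hx => by
      have := (hP₂ x).1 hx; rw [closedBall_eq_empty.2 hR] at this; exact this.1
    rw [e₁, e₂, Finset.sum_empty, Finset.sum_empty]
  -- a shell on which the segment stays away from zero
  obtain ⟨m, hm, r₀, hr₀, hshell⟩ : ∃ m > 0, ∃ r₀ < R, ∀ w ∈ closedBall c R, r₀ < dist w c →
      ∀ t ∈ Icc (0 : ℝ) 1, m < ‖(1 - t) • f₁ w + t • f₂ w‖ := by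
    set S := closedBall c R ×ˢ Icc (0 : ℝ) 1
    have hS : IsCompact S := (isCompact_closedBall c R).prod isCompact_Icc
    have hH : ContinuousOn (fun q : E × ℝ => ‖(1 - q.2) • f₁ q.1 + q.2 • f₂ q.1‖) S :=
      (((continuousOn_const.sub continuousOn_snd).smul
        (h₁.comp continuousOn_fst fun q hq => hq.1)).add (continuousOn_snd.smul
        (h₂.comp continuousOn_fst fun q hq => hq.1))).norm
    obtain ⟨m, hm, hle⟩ := ((isCompact_sphere c R).prod isCompact_Icc).exists_forall_le'
      (hH.mono (prod_mono sphere_subset_closedBall subset_rfl)) (a := 0)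
      (fun q hq => norm_pos_iff.2 (hseg q.1 (mem_sphere.1 hq.1) q.2 hq.2))
    have hK := hS.of_isClosed_subset
      (hH.preimage_isClosed_of_isClosed hS.isClosed (isClosed_Iic (a := m / 2)))
      inter_subset_left
    obtain ⟨r₀, hr₀, hlt⟩ := hK.exists_forall_le' (f := fun q => R - dist q.1 c) (a := 0)
      (continuous_const.sub (continuous_fst.dist continuous_const)).continuousOn (by
        intro q hq
        rcases eq_or_lt_of_le (mem_closedBall.1 hq.1.1) with h | h
        · have h' := hle q ⟨mem_sphere.2 h, hq.1.2⟩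
          have : ‖(1 - q.2) • f₁ q.1 + q.2 • f₂ q.1‖ ≤ m / 2 := hq.2
          linarith
        · linarith)
    refine ⟨m / 2, by linarith, R - r₀, by linarith, fun w hw hd t ht => ?_⟩
    by_contra hc
    push Not at hc
    have := hlt (w, t) ⟨⟨hw, ht⟩, hc⟩
    simp only at this
    linarith
  obtain ⟨F₁, hF₁, hF₁a, η₁, hη₁, hI₁⟩ := exists_adapted μ h₁ P₁ hP₁ hin₁ hr₁ (half_pos hm)
  obtain ⟨F₂, hF₂, hF₂a, η₂, hη₂, hI₂⟩ := exists_adapted μ h₂ P₂ hP₂ hin₂ hr₂ (half_pos hm)
  have hR0 : 0 < R - max r₀ 0 ∨ R = 0 := by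
    rcases eq_or_lt_of_le hR with h | h
    · exact Or.inr h.symm
    · exact Or.inl (sub_pos.2 (max_lt hr₀ h))
  rcases hR0 with hR0 | hR0
  swap
  · have e₁ : P₁ = ∅ := Finset.eq_empty_of_forall_notMem fun x hx => by
      simpa [hR0] using mem_ball.1 (hin₁ x hx) |>.trans_le' dist_nonneg
    have e₂ : P₂ = ∅ := Finset.eq_empty_of_forall_notMem fun x hx => by
      simpa [hR0] using mem_ball.1 (hin₂ x hx) |>.trans_le' dist_nonneg
    rw [e₁, e₂, Finset.sum_empty, Finset.sum_empty]
  set ρ := max r₀ 0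
  have hρ : 0 ≤ ρ := le_max_right _ _
  let χ : ContDiffBump c := ⟨ρ + (R - ρ) / 3, ρ + 2 * (R - ρ) / 3, by linarith, by linarith⟩
  let F : E → E := fun z => χ z • F₁ z + (1 - χ z) • F₂ z
  have hF : ContDiff ℝ 1 F :=
    (χ.contDiff.smul hF₁).add ((contDiff_const.sub χ.contDiff).smul hF₂)
  have heq : ∀ z, z ∉ closedBall c R → F z = F₂ z := by
    intro z hz
    rw [mem_closedBall, not_le] at hz
    have : χ z = 0 := χ.zero_of_le_dist (show ρ + 2 * (R - ρ) / 3 ≤ _ by linarith)
    simp [F, this]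
  set η := min (m / 2) (min η₁ η₂)
  have hη : 0 < η := by positivity
  let φ₀ : ContDiffBump (0 : E) := ⟨η / 4, η / 2, by linarith, by linarith⟩
  let φ : E → ℝ := φ₀.normed μ
  have hφ : Continuous φ := φ₀.continuous_normed
  have hφ0 : ∀ w, η ≤ ‖w‖ → φ w = 0 := by
    intro w hw
    have : φ₀ w = 0 := φ₀.zero_of_le_dist (show η / 2 ≤ _ by rw [dist_zero_right]; linarith)
    simp [φ, ContDiffBump.normed_def, this]
  have hφ1 : ∫ w, φ w ∂μ = 1 := φ₀.integral_normed
  have key := integral_comp_mul_det_eq μ (c := c) (R := R) hF hF₂ heq hφ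
  have hcong : ∀ z ∈ closedBall c R,
      φ (F z) * (fderiv ℝ F z).det = φ (F₁ z) * (fderiv ℝ F₁ z).det := by
    intro z hz
    by_cases hzr : dist z c < ρ + (R - ρ) / 3
    · have hev : F =ᶠ[𝓝 z] F₁ := by
        filter_upwards [isOpen_ball.mem_nhds (mem_ball.2 hzr)] with w hw
        simp [F, χ.one_of_mem_closedBall (ball_subset_closedBall hw)]
      rw [hev.eq_of_nhds, hev.fderiv_eq]
    · push Not at hzr
      have hd : r₀ < dist z c := by
        have : r₀ ≤ ρ := le_max_left _ _
        linarith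
      have hbig : ∀ t ∈ Icc (0 : ℝ) 1, m / 2 ≤ ‖(1 - t) • F₁ z + t • F₂ z‖ := by
        intro t ht
        have h := (hshell z hz hd t ht).le
        have h' : ‖((1 - t) • F₁ z + t • F₂ z) - ((1 - t) • f₁ z + t • f₂ z)‖ ≤ m / 2 := by
          rw [add_sub_add_comm, ← smul_sub, ← smul_sub]
          refine (norm_add_le _ _).trans ?_
          rw [norm_smul, norm_smul, Real.norm_eq_abs, Real.norm_eq_abs,
            abs_of_nonneg (by linarith [ht.2]), abs_of_nonneg ht.1]
          calc _ ≤ (1 - t) * (m / 2) + t * (m / 2) :=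
                add_le_add (mul_le_mul_of_nonneg_left (hF₁a z hz) (by linarith [ht.2]))
                  (mul_le_mul_of_nonneg_left (hF₂a z hz) ht.1)
            _ = m / 2 := by ring
        have := norm_le_norm_add_norm_sub' ((1 - t) • f₁ z + t • f₂ z)
          ((1 - t) • F₁ z + t • F₂ z)
        rw [norm_sub_rev] at this
        linarith
      have e1 : φ (F₁ z) = 0 := hφ0 _ ((min_le_left _ _).trans (by simpa using hbig 0 (by simp)))
      have e2 : φ (F z) = 0 := by
        refine hφ0 _ ((min_le_left _ _).trans ?_)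
        have := hbig (1 - χ z)
          ⟨by linarith [χ.le_one (x := z)], by linarith [χ.nonneg' z]⟩
        simpa [F] using this
      rw [e1, e2, zero_mul, zero_mul]
  rw [setIntegral_congr_fun measurableSet_closedBall hcong,
    hI₁ φ hφ (fun w hw => hφ0 w (((min_le_right _ _).trans (min_le_left _ _)).trans hw)),
    hI₂ φ hφ (fun w hw => hφ0 w (((min_le_right _ _).trans (min_le_right _ _)).trans hw)),
    hφ1, mul_one, mul_one] at key
  exact_mod_cast key

end

end Vale.Agent.P228
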