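import Vale.Agent.P228.Regular

/-!
Newman type lemmas for local actions of compact abelian pro-p groups by pointwise Lipschitz maps.
-/

namespace Vale.Agent.P228

open MeasureTheory Metric Set Function Filter Asymptotics
open scoped Topology RealInnerProductSpace

noncomputable section

variable {E : Type*} [NormedAddCommGroup E] [InnerProductSpace ℝ E] [FiniteDimensional ℝ E]
  [MeasurableSpace E] [BorelSpace E]
variable {K : Type*} [CommGroup K] [TopologicalSpace K] [IsTopologicalGroup K] [CompactSpace K]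
  [T2Space K]

/-- A continuous partial action on a closed ball, as read in a chart. -/
structure IsLocalAction (f : K → E → E) (c : E) (R : ℝ) : Prop where
  cont : ContinuousOn (uncurry f) (univ ×ˢ closedBall c R)
  one : ∀ x ∈ closedBall c R, f 1 x = x
  mul : ∀ k l, ∀ x ∈ closedBall c R, f l x ∈ closedBall c R → f (k * l) x = f k (f l x)

/-- All the maps `f k` are Lipschitz at `z`, uniformly in `k`. -/
def UnifLipAt (f : K → E → E) (z : E) : Prop :=
  ∃ m ρ : ℝ, 0 < ρ ∧ ∀ k w, dist w z < ρ → ‖f k w - f k z‖ ≤ m * ‖w - z‖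

/-- Every open subgroup has index a power of `p`. -/
def PIndices (K : Type*) [Group K] [TopologicalSpace K] (p : ℕ) : Prop :=
  ∀ S : Subgroup K, IsOpen (S : Set K) → ∃ a : ℕ, S.index = p ^ a

omit [MeasurableSpace E] [BorelSpace E] [InnerProductSpace ℝ E] [FiniteDimensional ℝ E]
  [IsTopologicalGroup K] [CompactSpace K] [T2Space K] in
lemma IsLocalAction.cont_right {f : K → E → E} {c : E} {R : ℝ} [NormedSpace ℝ E]
    (hf : IsLocalAction f c R) (k : K) : ContinuousOn (f k) (closedBall c R) :=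
  hf.cont.comp (continuousOn_const.prodMk continuousOn_id) fun x hx => ⟨mem_univ _, hx⟩

omit [MeasurableSpace E] [BorelSpace E] [FiniteDimensional ℝ E]
  [IsTopologicalGroup K] [CompactSpace K] [T2Space K] in
lemma IsLocalAction.cont_left {f : K → E → E} {c : E} {R : ℝ} (hf : IsLocalAction f c R) {x : E}
    (hx : x ∈ closedBall c R) : Continuous fun k => f k x :=
  hf.cont.comp_continuous (continuous_id.prodMk continuous_const) fun _ => ⟨mem_univ _, hx⟩

omit [MeasurableSpace E] [BorelSpace E] [FiniteDimensional ℝ E]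
  [IsTopologicalGroup K] [CompactSpace K] [T2Space K] in
lemma IsLocalAction.inv_apply {f : K → E → E} {c : E} {R : ℝ} (hf : IsLocalAction f c R) (l : K)
    {x : E} (hx : x ∈ closedBall c R) (hlx : f l x ∈ closedBall c R) : f l⁻¹ (f l x) = x := by
  rw [← hf.mul l⁻¹ l x hx hlx, inv_mul_cancel, hf.one x hx]

omit [InnerProductSpace ℝ E] [FiniteDimensional ℝ E] [MeasurableSpace E] [BorelSpace E] in
lemma UnifLipAt.isBigO {f : K → E → E} {z : E} (h : UnifLipAt f z) (k : K) :
    (fun w => f k w - f k z) =O[𝓝 z] fun w => w - z := by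
  obtain ⟨m, ρ, hρ, hb⟩ := h
  exact IsBigO.of_bound m (by filter_upwards [ball_mem_nhds z hρ] with w hw using hb k w hw)

lemma exists_average {f : K → E → E} {c : E} {R : ℝ} (hf : IsLocalAction f c R) {ψ : E → E}
    (hψ : Continuous ψ) (hψL : ∀ r, ∃ L, LipschitzOnWith L ψ (closedBall c r)) :
    ∃ A : E → E, ContinuousOn A (closedBall c R) ∧
      (∀ z ∈ ball c R, UnifLipAt f z → (fun w => A w - A z) =O[𝓝 z] fun w => w - z) ∧
      (∀ l, ∀ x ∈ closedBall c R, f l x ∈ closedBall c R → A (f l x) = A x) ∧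
      (∀ x ∈ closedBall c R, ∀ C : Set E, Convex ℝ C → IsClosed C →
        (∀ k, ψ (f k x) ∈ C) → A x ∈ C) ∧
      (∀ x ∈ closedBall c R, (∀ k, f k x = x) → A x = ψ x) := by
  borelize K
  let ν : Measure K := Measure.haarMeasure ⊤
  have : IsProbabilityMeasure ν := ⟨by
    simpa [ν] using Measure.haarMeasure_self (K₀ := (⊤ : TopologicalSpace.PositiveCompacts K))⟩
  have himg := (isCompact_univ.prod (isCompact_closedBall c R)).image_of_continuousOn hf.cont
  obtain ⟨r, hr⟩ := himg.isBounded.subset_closedBall c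
  have hmem : ∀ k, ∀ x ∈ closedBall c R, f k x ∈ closedBall c r := fun k x hx =>
    hr ⟨(k, x), ⟨mem_univ _, hx⟩, rfl⟩
  have hint : ∀ x ∈ closedBall c R, Integrable (fun k => ψ (f k x)) ν := fun x hx =>
    (hψ.comp (hf.cont_left hx)).integrable_of_hasCompactSupport (HasCompactSupport.of_compactSpace _)
  obtain ⟨B, hB⟩ := ((isCompact_closedBall c r).image hψ).isBounded.exists_norm_le
  refine ⟨fun x => ∫ k, ψ (f k x) ∂ν, ?_, ?_, ?_, ?_, ?_⟩
  · refine continuousOn_of_dominated (bound := fun _ => B)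
      (fun x hx => (hint x hx).aestronglyMeasurable)
      (fun x hx => Eventually.of_forall fun k => hB _ ⟨_, hmem k x hx, rfl⟩) (integrable_const B)
      (Eventually.of_forall fun k => hψ.comp_continuousOn (hf.cont_right k))
  · rintro z hz ⟨m, ρ, hρ, hb⟩
    obtain ⟨L, hL⟩ := hψL r
    refine IsBigO.of_bound ((L : ℝ) * m) ?_
    filter_upwards [ball_mem_nhds z hρ, isOpen_ball.mem_nhds hz] with w hw hwR
    have hwR' := ball_subset_closedBall hwR
    have hzR' := ball_subset_closedBall hz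
    rw [← integral_sub (hint w hwR') (hint z hzR')]
    refine (norm_integral_le_of_norm_le (integrable_const ((L : ℝ) * (m * ‖w - z‖)))
      (Eventually.of_forall fun k => ?_)).trans (le_of_eq ?_)
    · exact (hL.norm_sub_le (hmem k w hwR') (hmem k z hzR')).trans
        (mul_le_mul_of_nonneg_left (hb k w hw) L.2)
    · simp [mul_assoc]
  · intro l x hx hlx
    simp only
    rw [← integral_mul_right_eq_self (μ := ν) (fun k => ψ (f k x)) l]
    exact integral_congr_ae (Eventually.of_forall fun k => by simp only [hf.mul k l x hx hlx])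
  · intro x hx C hC hCc hk
    exact hC.integral_mem hCc (Eventually.of_forall hk) (hint x hx)
  · intro x hx hfix
    simp [hfix]

omit [InnerProductSpace ℝ E] [FiniteDimensional ℝ E] [MeasurableSpace E] [BorelSpace E] in
lemma dsign_mul_self [NormedSpace ℝ E] (g : E → E) (x : E) : dsign g x * dsign g x = 1 := by
  unfold dsign; split_ifs <;> norm_num

/-- If `A ∘ g = A` near `x` and `A` is regular at `x` and `g x`, then `g` is regular at `x`. -/
lemma regular_of_comp {A g : E → E} {x : E} (hx : RegularAt A x) (hx' : RegularAt A (g x))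
    (hg : (fun w => g w - g x) =O[𝓝 x] fun w => w - x) (hAg : ∀ᶠ w in 𝓝 x, A (g w) = A w) :
    RegularAt g x ∧ dsign A x = dsign A (g x) * dsign g x := by
  obtain ⟨L, hL⟩ := hx
  obtain ⟨L', hL'⟩ := hx'
  have hgc : Tendsto g (𝓝 x) (𝓝 (g x)) := by
    have h0 : Tendsto (fun w : E => w - x) (𝓝 x) (𝓝 0) :=
      tendsto_sub_nhds_zero_iff.2 tendsto_id
    simpa using (hg.trans_tendsto h0).add_const (g x)
  have h2 : (fun w => A (g w) - A (g x) - L' (g w - g x)) =o[𝓝 x] fun w => w - x :=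
    ((hasFDerivAt_iff_isLittleO.1 hL').comp_tendsto hgc).trans_isBigO hg
  have h3 : (fun w => L' (g w - g x) - L (w - x)) =o[𝓝 x] fun w => w - x := by
    refine ((hasFDerivAt_iff_isLittleO.1 hL).sub h2).congr' ?_ EventuallyEq.rfl
    filter_upwards [hAg] with w hw
    simp only [ContinuousLinearEquiv.coe_coe, hw, hAg.self_of_nhds]
    abel
  have hd : HasFDerivAt g ((L.trans L'.symm : E ≃L[ℝ] E) : E →L[ℝ] E) x := by
    rw [hasFDerivAt_iff_isLittleO]
    refine ((((L'.symm : E →L[ℝ] E).isBigO_comp _ (𝓝 x)).trans_isLittleO h3)).congr_left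
      fun w => ?_
    simp [map_sub]
  refine ⟨⟨_, hd⟩, ?_⟩
  have hdet : (L' : E →L[ℝ] E).det * ((L.trans L'.symm : E ≃L[ℝ] E) : E →L[ℝ] E).det
      = (L : E →L[ℝ] E).det := by
    simp only [ContinuousLinearMap.det]
    rw [← LinearMap.det_comp]
    congr 1
    ext v
    simp
  simp only [dsign, hd.fderiv, hL.fderiv, hL'.fderiv]
  have := det_equiv_ne_zero L'
  rcases lt_or_gt_of_ne (det_equiv_ne_zero (L.trans L'.symm)) with h | h <;>
    rcases lt_or_gt_of_ne this with h' | h'
  · have : 0 < (L : E →L[ℝ] E).det := hdet ▸ mul_pos_of_neg_of_neg h' h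
    simp [this, h.le.not_gt, h'.le.not_gt]
  · have : (L : E →L[ℝ] E).det < 0 := hdet ▸ mul_neg_of_pos_of_neg h' h
    simp [this.le.not_gt, h.le.not_gt, h']
  · have : (L : E →L[ℝ] E).det < 0 := hdet ▸ mul_neg_of_neg_of_pos h' h
    simp [this.le.not_gt, h, h'.le.not_gt]
  · have : 0 < (L : E →L[ℝ] E).det := hdet ▸ mul_pos h' h
    simp [this, h, h']

lemma dsign_sub_const (g : E → E) (v x : E) : dsign (fun w => g w - v) x = dsign g x := by
  simp [dsign, fderiv_sub_const]

lemma regularAt_sub_const {g : E → E} {x : E} (h : RegularAt g x) (v : E) :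
    RegularAt (fun w => g w - v) x := by
  obtain ⟨L, hL⟩ := h; exact ⟨L, hL.sub_const v⟩

lemma dsign_eq_of_injOn {g : E → E} {c : E} {R : ℝ} (hg : ContinuousOn g (closedBall c R))
    (hinj : InjOn g (closedBall c R)) {x₁ x₂ : E} (h₁ : x₁ ∈ closedBall c R)
    (h₂ : x₂ ∈ closedBall c R) (hr₁ : RegularAt g x₁) (hr₂ : RegularAt g x₂)
    (hseg : ∀ w, dist w c = R → g w ∉ segment ℝ (g x₁) (g x₂)) :
    dsign g x₁ = dsign g x₂ := by
  have h := degree_compare (f₁ := fun w => g w - g x₁) (f₂ := fun w => g w - g x₂)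
    (hg.sub continuousOn_const) (hg.sub continuousOn_const) {x₁} {x₂}
    (fun x => by
      simp only [Finset.mem_singleton, sub_eq_zero]
      exact ⟨fun h => by subst h; exact ⟨h₁, rfl⟩, fun h => hinj h.1 h₁ h.2⟩)
    (fun x => by
      simp only [Finset.mem_singleton, sub_eq_zero]
      exact ⟨fun h => by subst h; exact ⟨h₂, rfl⟩, fun h => hinj h.1 h₂ h.2⟩)
    (by simpa using regularAt_sub_const hr₁ _) (by simpa using regularAt_sub_const hr₂ _)
    (fun w hw t ht h => hseg w hw ⟨1 - t, t, by linarith [ht.2], ht.1, by ring, by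
      rw [smul_sub, smul_sub] at h
      have : (1 - t) • g x₁ + t • g x₂ = (1 - t) • g w + t • g w := by
        rw [← sub_eq_zero, ← neg_eq_zero.2 h]; abel
      rw [this, ← add_smul, sub_add_cancel, one_smul]⟩)
  simpa [dsign_sub_const] using h

/-- An invariant finite set without fixed points, with a sign constant on orbits, has signed
count divisible by `p`. -/
lemma dvd_sum_of_invariant {f : K → E → E} {c : E} {R : ℝ} (hf : IsLocalAction f c R) {p : ℕ}
    (hp : PIndices K p) (P : Finset E) (hsub : ∀ x ∈ P, x ∈ closedBall c R)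
    (hinv : ∀ l, ∀ x ∈ P, f l x ∈ P) (hnofix : ∀ x ∈ P, ∃ l, f l x ≠ x)
    (σ : E → ℤ) (hσ : ∀ l, ∀ x ∈ P, σ (f l x) = σ x) : (p : ℤ) ∣ ∑ x ∈ P, σ x := by
  classical
  let : MulAction K {x // x ∈ P} :=
    { smul := fun l x => ⟨f l x, hinv l x x.2⟩
      one_smul := fun x => Subtype.ext (hf.one x (hsub x x.2))
      mul_smul := fun k l x =>
        Subtype.ext (hf.mul k l x (hsub x x.2) (hsub _ (hinv l x x.2))) }
  rw [← P.sum_coe_sort, ← (MulAction.selfEquivSigmaOrbits K {x // x ∈ P}).symm.sum_comp,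
    Fintype.sum_sigma]
  refine Finset.dvd_sum fun q _ => ?_
  set a := q.out
  have hconst : ∀ y : MulAction.orbit K a,
      σ ((MulAction.selfEquivSigmaOrbits K {x // x ∈ P}).symm ⟨q, y⟩ : E) = σ a := by
    rintro ⟨y, l, rfl⟩
    exact hσ l a a.2
  rw [Finset.sum_congr rfl fun y _ => hconst y, Finset.sum_const, nsmul_eq_mul]
  refine dvd_mul_of_dvd_left (Int.natCast_dvd_natCast.2 ?_) _
  rw [Finset.card_univ, ← Nat.card_eq_fintype_card, Nat.card_coe_set_eq,
    ← MulAction.index_stabilizer]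
  have hcl : IsClosed (MulAction.stabilizer K a : Set K) := by
    have : (MulAction.stabilizer K a : Set K) = (fun k => f k a) ⁻¹' {(a : E)} :=
      Set.ext fun k => by
        simp only [SetLike.mem_coe, MulAction.mem_stabilizer_iff, Subtype.ext_iff]
        exact Iff.rfl
    rw [this]
    exact isClosed_singleton.preimage (hf.cont_left (hsub a a.2))
  have hfi : (MulAction.stabilizer K a).FiniteIndex := ⟨by
    rw [MulAction.index_stabilizer, ← Nat.card_coe_set_eq]
    have : Nonempty (MulAction.orbit K a) := ⟨⟨a, MulAction.mem_orbit_self a⟩⟩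
    exact (Nat.card_pos (α := MulAction.orbit K a)).ne'⟩
  obtain ⟨b, hb⟩ := hp _ (Subgroup.isOpen_of_isClosed_of_finiteIndex _ hcl)
  rcases Nat.eq_zero_or_pos b with rfl | hb0
  · exfalso
    obtain ⟨l, hl⟩ := hnofix a a.2
    rw [pow_zero, Subgroup.index_eq_one] at hb
    have : l ∈ MulAction.stabilizer K a := hb ▸ Subgroup.mem_top l
    exact hl (congrArg Subtype.val (MulAction.mem_stabilizer_iff.1 this))
  · rw [hb]; exact dvd_pow_self p hb0.ne'

lemma not_dvd_dsign {p : ℕ} (hp : p.Prime) (g : E → E) (x : E) : ¬ (p : ℤ) ∣ dsign g x := by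
  intro h
  have : (p : ℤ) ∣ 1 := dsign_mul_self g x ▸ h.mul_right _
  exact hp.one_lt.ne' (by exact_mod_cast Int.eq_one_of_dvd_one (by positivity) this)

lemma exists_good_value (μ : Measure E) [μ.IsAddHaarMeasure] {P : E → Prop} (hP : ∀ᵐ y ∂μ, P y)
    {U : Set E} (hU : IsOpen U) (hne : U.Nonempty) : ∃ y ∈ U, P y := by
  by_contra h
  push Not at h
  exact (hU.measure_pos μ hne).ne' (measure_mono_null (fun y hy => h y hy) (ae_iff.1 hP))

/-- Newman lemma: a pro-p action with small displacement fixes the half ball. -/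
theorem fixed_of_small_displacement {f : K → E → E} {c : E} {R δ : ℝ}
    (hf : IsLocalAction f c R) {p : ℕ} (hpp : p.Prime) (hp : PIndices K p)
    (hδ : ∀ k, ∀ x ∈ closedBall c R, ‖f k x - x‖ ≤ δ) (hδR : 8 * δ < R)
    (hl : ∀ z ∈ ball c R, UnifLipAt f z) :
    ∀ x ∈ ball c (R / 2), ∀ k, f k x = x := by
  by_contra hcon
  push Not at hcon
  obtain ⟨x₀, hx₀, k₀, hk₀⟩ := hcon
  have hR : 0 < R := by linarith [dist_nonneg.trans_lt (mem_ball.1 hx₀)]
  have hcB : c ∈ closedBall c R := mem_closedBall_self hR.le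
  have hδ0 : 0 ≤ δ := (norm_nonneg _).trans (hδ 1 c hcB)
  have hFix : IsClosed {x ∈ closedBall c R | ∀ k, f k x = x} := by
    have : {x ∈ closedBall c R | ∀ k, f k x = x}
        = ⋂ k, closedBall c R ∩ (fun x => f k x - x) ⁻¹' {0} := by
      ext x; simp [sub_eq_zero, forall_and]
    rw [this]
    exact isClosed_iInter fun k => ((hf.cont_right k).sub
      continuousOn_id).preimage_isClosed_of_isClosed isClosed_closedBall isClosed_singleton
  obtain ⟨A, hAc, hAl, hAinv, hAconv, hAfix⟩ :=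
    exists_average hf continuous_id fun r => ⟨1, LipschitzWith.id.lipschitzOnWith⟩
  have hAd : ∀ x ∈ closedBall c R, dist (A x) x ≤ δ := fun x hx =>
    hAconv x hx (closedBall x δ) (convex_closedBall _ _) isClosed_closedBall fun k => by
      simpa [mem_closedBall, dist_eq_norm] using hδ k x hx
  let μ : Measure E := Measure.addHaar
  obtain ⟨y, ⟨hy, hyF⟩, hgood⟩ := exists_good_value μ
    (ae_regular_values μ hAc fun z hz => hAl z hz (hl z hz))
    (isOpen_ball.sdiff hFix) ⟨x₀, hx₀, fun h => hk₀ (h.2 k₀)⟩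
  have hyd : dist y c < R / 2 := mem_ball.1 hy
  have hpre : ∀ x ∈ closedBall c R, A x = y → dist x c ≤ R / 2 + δ := fun x hx h => by
    linarith [dist_triangle x (A x) c, dist_comm (A x) x, hAd x hx, h ▸ hyd]
  have hreg : ∀ x ∈ closedBall c R, A x = y → RegularAt A x := fun x hx h =>
    hgood x (mem_ball.2 (by linarith [hpre x hx h])) h
  obtain ⟨P, hP⟩ := (finite_regular_fiber hAc y hreg).exists_finset
  have hmove : ∀ l, ∀ x ∈ closedBall c R, dist (f l x) x ≤ δ := fun l x hx => by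
    rw [dist_eq_norm]; exact hδ l x hx
  have hinv : ∀ l, ∀ x ∈ P, f l x ∈ P := fun l x hx => by
    obtain ⟨hxB, hxy⟩ := (hP x).1 hx
    have : f l x ∈ closedBall c R := mem_closedBall.2 (by
      linarith [dist_triangle (f l x) x c, hmove l x hxB, hpre x hxB hxy])
    exact (hP _).2 ⟨this, (hAinv l x hxB this).trans hxy⟩
  have hσ : ∀ l, ∀ x ∈ P, dsign A (f l x) = dsign A x := by
    intro l x hx
    obtain ⟨hxB, hxy⟩ := (hP x).1 hx
    obtain ⟨hlB, hly⟩ := (hP _).1 (hinv l x hx)
    have hxb : x ∈ ball c R := mem_ball.2 (by linarith [hpre x hxB hxy])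
    have hev : ∀ᶠ w in 𝓝 x, A (f l w) = A w := by
      have h1 : ∀ᶠ w in 𝓝 x, w ∈ ball c R := isOpen_ball.mem_nhds hxb
      have h2 : Tendsto (f l) (𝓝 x) (𝓝 (f l x)) :=
        (hf.cont_right l).continuousAt (closedBall_mem_nhds_of_mem hxb)
      have h3 : ∀ᶠ w in 𝓝 x, f l w ∈ ball c R := h2.eventually
        (isOpen_ball.mem_nhds (mem_ball.2 (by linarith [hpre _ hlB hly])))
      filter_upwards [h1, h3] with w hw hw'
      exact hAinv l w (ball_subset_closedBall hw) (ball_subset_closedBall hw')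
    obtain ⟨hgr, heq⟩ := regular_of_comp (hreg x hxB hxy) (hreg _ hlB hly)
      ((hl x hxb).isBigO l) hev
    have hg1 : dsign (f l) x = 1 := by
      have hone : dsign (fun w => w - f l x) (f l x) = 1 := by
        rw [dsign_sub_const]; simp [dsign, ContinuousLinearMap.det]
      have h := degree_compare (f₁ := fun w => f l w - f l x) (f₂ := fun w => w - f l x)
        ((hf.cont_right l).sub continuousOn_const) (continuousOn_id.sub continuousOn_const)
        {x} {f l x}
        (fun w => by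
          simp only [Finset.mem_singleton, sub_eq_zero]
          refine ⟨fun h => by subst h; exact ⟨hxB, rfl⟩, fun h => ?_⟩
          rw [← hf.inv_apply l h.1 (h.2 ▸ hlB), h.2, hf.inv_apply l hxB hlB])
        (fun w => by
          simp only [Finset.mem_singleton, sub_eq_zero]
          exact ⟨fun h => by subst h; exact ⟨hlB, rfl⟩, fun h => h.2⟩)
        (by simpa using regularAt_sub_const hgr _)
        (by simpa using ⟨ContinuousLinearEquiv.refl ℝ E, (hasFDerivAt_id _).sub_const _⟩)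
        (fun w hw t ht h => by
          have hwB : w ∈ closedBall c R := mem_closedBall.2 hw.le
          have h' : (w - f l x) + (1 - t) • (f l w - w) = 0 := by
            rw [← h]; simp only [smul_sub, sub_smul, one_smul]; abel
          have h1 : ‖w - f l x‖ ≤ δ := by
            rw [eq_neg_of_add_eq_zero_left h', norm_neg, norm_smul, Real.norm_eq_abs,
              abs_of_nonneg (by linarith [ht.2])]
            exact (mul_le_of_le_one_left (norm_nonneg _) (by linarith [ht.1])).trans (hδ l w hwB)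
          rw [← dist_eq_norm] at h1
          linarith [dist_triangle w (f l x) c, dist_triangle (f l x) x c, hmove l x hxB,
            hpre x hxB hxy])
      rw [Finset.sum_singleton, Finset.sum_singleton] at h
      exact (dsign_sub_const _ _ _).symm.trans (h.trans hone)
    rw [heq, hg1, mul_one]
  have hnofix : ∀ x ∈ P, ∃ l, f l x ≠ x := by
    intro x hx
    obtain ⟨hxB, hxy⟩ := (hP x).1 hx
    by_contra h
    push Not at h
    exact hyF (((hAfix x hxB h).symm.trans hxy : x = y) ▸ ⟨hxB, h⟩)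
  have hdvd := dvd_sum_of_invariant hf hp P (fun x hx => ((hP x).1 hx).1) hinv hnofix _ hσ
  have hcmp := degree_compare (f₁ := fun w => A w - y) (f₂ := fun w => w - y)
    (hAc.sub continuousOn_const) (continuousOn_id.sub continuousOn_const) P {y}
    (fun x => by simp only [sub_eq_zero]; exact hP x)
    (fun w => by
      simp only [Finset.mem_singleton, sub_eq_zero]
      exact ⟨fun h => by subst h; exact ⟨mem_closedBall.2 (by linarith), rfl⟩, fun h => h.2⟩)
    (fun x hx => regularAt_sub_const (hreg x ((hP x).1 hx).1 ((hP x).1 hx).2) _)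
    (by simpa using ⟨ContinuousLinearEquiv.refl ℝ E, (hasFDerivAt_id _).sub_const _⟩)
    (fun w hw t ht h => by
      have hwB : w ∈ closedBall c R := mem_closedBall.2 hw.le
      have h' : (w - y) + (1 - t) • (A w - w) = 0 := by
        rw [← h]; simp only [smul_sub, sub_smul, one_smul]; abel
      have h1 : ‖w - y‖ ≤ δ := by
        rw [eq_neg_of_add_eq_zero_left h', norm_neg, norm_smul, Real.norm_eq_abs,
          abs_of_nonneg (by linarith [ht.2]), ← dist_eq_norm]
        exact (mul_le_of_le_one_left dist_nonneg (by linarith [ht.1])).trans (hAd w hwB)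
      rw [← dist_eq_norm] at h1
      linarith [dist_triangle w y c])
  simp only [dsign_sub_const, Finset.sum_singleton] at hcmp
  rw [hcmp] at hdvd
  exact not_dvd_dsign hpp _ _ hdvd

/-- Near a fixed point touched by an open ball of fixed points, all points are fixed. -/
theorem not_touching {f : K → E → E} {R s : ℝ} {e : E}
    (hf : IsLocalAction f 0 R) {p : ℕ} (hpp : p.Prime) (hp : PIndices K p) (hR : 0 < R)
    (hl : ∀ z ∈ ball (0 : E) R, UnifLipAt f z) (h0 : ∀ k, f k 0 = 0) (hs : 0 < s)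
    (he : ‖e‖ = 1) (hfixball : ∀ x ∈ ball (-(s • e)) s, x ∈ closedBall 0 R → ∀ k, f k x = x)
    (hmoved : ∀ r > 0, ∃ x, ‖x‖ < r ∧ ∃ k, f k x ≠ x) : False := by
  -- equicontinuity at the fixed point
  have hequi : ∀ a > 0, ∃ b > 0, b ≤ R ∧ ∀ k x, ‖x‖ ≤ b → ‖f k x‖ < a := by
    intro a ha
    have h0B : (0 : E) ∈ closedBall (0 : E) R := mem_closedBall_self hR.le
    have : ∀ᶠ x in 𝓝 (0 : E), ∀ k ∈ (univ : Set K), ‖f k x‖ < a := by
      refine isCompact_univ.eventually_forall_of_forall_eventually fun k _ => ?_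
      have h1 := (hf.cont (k, 0) ⟨mem_univ _, h0B⟩).continuousAt
        (prod_mem_nhds univ_mem (closedBall_mem_nhds _ hR))
      have h2 : ∀ᶠ q in 𝓝 (k, (0 : E)), ‖uncurry f q‖ < a :=
        h1.norm.eventually_lt_const (by simp [h0 k, ha])
      have h3 : Tendsto (fun q : E × K => (q.2, q.1)) (𝓝 (0, k)) (𝓝 (k, 0)) :=
        (continuous_snd.prodMk continuous_fst).tendsto _
      exact h3.eventually h2
    obtain ⟨b, hb, hb'⟩ := Metric.eventually_nhds_iff.1 this
    refine ⟨min (b / 2) R, by positivity, min_le_right _ _, fun k x hx => hb' ?_ k (mem_univ _)⟩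
    rw [dist_zero_right]
    linarith [min_le_left (b / 2) R]
  -- bending of the coordinate in the direction `e`
  let ψ : E → E := fun w => w + (s⁻¹ * ‖w‖ ^ 2) • e
  have hψdiff : ∀ a b, ‖(ψ a - ψ b) - (a - b)‖ ≤ s⁻¹ * (‖a‖ + ‖b‖) * ‖a - b‖ := by
    intro a b
    have : (ψ a - ψ b) - (a - b) = (s⁻¹ * (‖a‖ ^ 2 - ‖b‖ ^ 2)) • e := by
      simp only [ψ, mul_sub, sub_smul]; abel
    rw [this, norm_smul, he, mul_one, Real.norm_eq_abs, abs_mul, abs_inv, abs_of_pos hs,
      mul_assoc]
    refine mul_le_mul_of_nonneg_left ?_ (by positivity)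
    rw [show ‖a‖ ^ 2 - ‖b‖ ^ 2 = (‖a‖ + ‖b‖) * (‖a‖ - ‖b‖) by ring, abs_mul,
      abs_of_nonneg (by positivity)]
    exact mul_le_mul_of_nonneg_left (abs_norm_sub_norm_le a b) (by positivity)
  have hψc : Continuous ψ := by fun_prop
  have hψL : ∀ r, ∃ L, LipschitzOnWith L ψ (closedBall (0 : E) r) := fun r =>
    ⟨Real.toNNReal (1 + s⁻¹ * (2 * r)), LipschitzOnWith.of_dist_le_mul fun a ha b hb => by
      rw [mem_closedBall, dist_zero_right] at ha hb
      have hr0 : 0 ≤ r := (norm_nonneg a).trans ha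
      rw [dist_eq_norm, dist_eq_norm, Real.coe_toNNReal _ (by positivity)]
      calc ‖ψ a - ψ b‖ ≤ ‖a - b‖ + ‖(ψ a - ψ b) - (a - b)‖ :=
            norm_le_norm_add_norm_sub' _ _
        _ ≤ ‖a - b‖ + s⁻¹ * (2 * r) * ‖a - b‖ := by
            gcongr
            refine (hψdiff a b).trans ?_
            gcongr
            linarith
        _ = _ := by ring⟩
  have hψinj : ∀ a b : E, ‖a‖ + ‖b‖ < s → ψ a = ψ b → a = b := by
    intro a b hab h
    have h1 := hψdiff a b
    rw [h, sub_self, zero_sub, norm_neg] at h1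
    have h2 : s⁻¹ * (‖a‖ + ‖b‖) < 1 := by
      rw [inv_mul_lt_iff₀ hs, mul_one]; exact hab
    by_contra hne
    have : 0 < ‖a - b‖ := norm_pos_iff.2 (sub_ne_zero.2 hne)
    nlinarith
  -- radii
  obtain ⟨R₁, hR₁, hR₁R, hKR₁⟩ := hequi R hR
  obtain ⟨ρ₀, hρ₀, -, hKρ₀⟩ := hequi R₁ hR₁
  obtain ⟨ρ', hρ', -, hKρ'⟩ := hequi ρ₀ hρ₀
  set ρ := min (ρ' / 2) (min (s / 4) (min (R₁ / 2) (ρ₀ / 2)))
  have hρ : 0 < ρ := by positivity
  have hρρ' : ρ ≤ ρ' / 2 := min_le_left _ _
  have hρs : ρ ≤ s / 4 := (min_le_right _ _).trans (min_le_left _ _)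
  have hρR : ρ ≤ R₁ / 2 := (min_le_right _ _).trans ((min_le_right _ _).trans (min_le_left _ _))
  obtain ⟨σ, hσpos, hσR, hKσ⟩ := hequi ρ hρ
  have hσρ : σ ≤ ρ := by
    by_contra h
    push Not at h
    obtain ⟨x, hx, -⟩ := hmoved ρ hρ
    have := hKσ 1 (ρ • e) (by rw [norm_smul, he, mul_one, Real.norm_eq_abs, abs_of_pos hρ]
                              exact h.le)
    rw [hf.one _ (mem_closedBall.2 (by
      rw [dist_zero_right, norm_smul, he, mul_one, Real.norm_eq_abs, abs_of_pos hρ]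
      linarith)), norm_smul, he, mul_one, Real.norm_eq_abs, abs_of_pos hρ] at this
    linarith
  set η := min (σ / 2) (σ ^ 2 / (2 * s))
  have hη : 0 < η := by positivity
  have hBR : ∀ {x : E}, ‖x‖ ≤ R₁ → x ∈ closedBall (0 : E) R := fun hx =>
    mem_closedBall_zero_iff.2 (hx.trans hR₁R)
  obtain ⟨A, hAc, hAl, hAinv, hAconv, hAfix⟩ := exists_average hf hψc hψL
  have hAc' : ContinuousOn A (closedBall 0 ρ) :=
    hAc.mono (closedBall_subset_closedBall (by linarith))
  -- outside the core, `A` avoids the small ball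
  have key : ∀ x, ‖x‖ ≤ ρ → ‖A x‖ < η → ∀ k, ‖f k x‖ < ρ := by
    intro x hx hAx
    have hxR : x ∈ closedBall (0 : E) R := hBR (by linarith)
    have hlR : ∀ l, f l x ∈ closedBall (0 : E) R := fun l =>
      mem_closedBall_zero_iff.2 (hKR₁ l x (by linarith)).le
    by_contra hcon
    push Not at hcon
    obtain ⟨k₁, hk₁⟩ := hcon
    have hfar : ∀ l, σ < ‖f l x‖ := by
      intro l
      by_contra h
      push Not at h
      have := hKσ (k₁ * l⁻¹) (f l x) h
      rw [← hf.mul _ l x hxR (hlR l), inv_mul_cancel_right] at this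
      linarith
    by_cases hfix : ∀ k, f k x = x
    · rw [hAfix x hxR hfix] at hAx
      have h1 : σ < ‖x‖ := by simpa [hfix] using hfar 1
      have h2 := hψdiff x 0
      have : ψ 0 = 0 := by simp [ψ]
      rw [this, sub_zero, sub_zero, norm_zero, add_zero] at h2
      have h3 : s⁻¹ * ‖x‖ ≤ 1 / 4 := by
        rw [inv_mul_le_iff₀ hs]; linarith
      have h4 := norm_le_norm_add_norm_sub' x (ψ x)
      rw [norm_sub_rev] at h4
      have : η ≤ σ / 2 := min_le_left _ _
      nlinarith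
    · push Not at hfix
      obtain ⟨k₂, hk₂⟩ := hfix
      have hmem : ∀ l, ψ (f l x) ∈ {z : E | σ ^ 2 / (2 * s) ≤ ⟪e, z⟫} := by
        intro l
        have hnot : f l x ∉ ball (-(s • e)) s := by
          intro h
          have hall := hfixball _ h (hlR l)
          have h1 := hf.inv_apply l hxR (hlR l)
          rw [hall l⁻¹] at h1
          exact hk₂ (by conv_lhs => rw [← h1, hall k₂]
                        exact h1)
        rw [mem_ball, not_lt, dist_eq_norm, sub_neg_eq_add] at hnot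
        have h2 : s ^ 2 ≤ ‖f l x + s • e‖ ^ 2 := pow_le_pow_left₀ hs.le hnot 2
        rw [norm_add_sq_real, real_inner_smul_right, norm_smul, he, mul_one, Real.norm_eq_abs,
          abs_of_pos hs, real_inner_comm] at h2
        have h3 : ⟪e, ψ (f l x)⟫ = ⟪e, f l x⟫ + s⁻¹ * ‖f l x‖ ^ 2 := by
          simp only [ψ, inner_add_right, real_inner_smul_right, real_inner_self_eq_norm_sq, he,
            one_pow, mul_one]
        change σ ^ 2 / (2 * s) ≤ ⟪e, ψ (f l x)⟫
        rw [h3, div_le_iff₀ (by positivity), add_mul]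
        have h4 : σ ^ 2 ≤ ‖f l x‖ ^ 2 := pow_le_pow_left₀ hσpos.le (hfar l).le 2
        have h5 : s⁻¹ * ‖f l x‖ ^ 2 * (2 * s) = 2 * ‖f l x‖ ^ 2 := by field_simp
        rw [h5]
        linarith
      have h6 : σ ^ 2 / (2 * s) ≤ ⟪e, A x⟫ := hAconv x hxR _
        (convex_halfSpace_ge (innerSL ℝ e).toLinearMap.isLinear _)
        (isClosed_le continuous_const (continuous_const.inner continuous_id)) hmem
      have h7 : ⟪e, A x⟫ ≤ ‖A x‖ := by
        simpa [he] using real_inner_le_norm e (A x)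
      have : η ≤ σ ^ 2 / (2 * s) := min_le_right _ _
      linarith
  have hsphere : ∀ x, dist x 0 = ρ → η ≤ ‖A x‖ := by
    intro x hx
    rw [dist_zero_right] at hx
    by_contra h
    push Not at h
    have := key x hx.le h 1
    rw [hf.one x (hBR (by linarith)), hx] at this
    exact lt_irrefl _ this
  -- a small fixed point
  set w₀ : E := -((η / 4) • e)
  have hηs : η < s := by
    have : η ≤ σ / 2 := min_le_left _ _
    linarith
  have hw₀n : ‖w₀‖ = η / 4 := by
    rw [norm_neg, norm_smul, he, mul_one, Real.norm_eq_abs, abs_of_pos (by positivity)]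
  let O : Set E := ball (-(s • e)) s ∩ ball 0 ρ
  have hOfix : ∀ x ∈ O, ∀ k, f k x = x := fun x hx =>
    hfixball x hx.1 (hBR (by linarith [mem_ball_zero_iff.1 hx.2]))
  have hw₀O : w₀ ∈ O := by
    refine ⟨?_, mem_ball_zero_iff.2 ?_⟩
    · have e1 : w₀ - -(s • e) = (s - η / 4) • e := by rw [sub_smul]; simp only [w₀]; abel
      rw [mem_ball, dist_eq_norm, e1, norm_smul, he, mul_one, Real.norm_eq_abs,
        abs_of_nonneg (by linarith)]
      linarith
    · have : η ≤ σ / 2 := min_le_left _ _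
      rw [hw₀n]; linarith
  have hAO : ∀ x ∈ O, A x = ψ x := fun x hx =>
    hAfix x (hBR (by linarith [mem_ball_zero_iff.1 hx.2])) (hOfix x hx)
  let μ : Measure E := Measure.addHaar
  have hgood : ∀ᵐ y ∂μ, ∀ x ∈ ball (0 : E) R, A x = y → RegularAt A x :=
    ae_regular_values μ hAc fun z hz => hAl z hz (hl z hz)
  -- fibres over the small ball consist of whole orbits near the origin
  have hfib : ∀ y, ‖y‖ < η → (∀ x ∈ ball (0 : E) R, A x = y → RegularAt A x) →
      ∃ P : Finset E, (∀ x, x ∈ P ↔ x ∈ closedBall 0 ρ ∧ A x = y) ∧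
        (∀ x ∈ P, RegularAt A x) ∧ (∀ l, ∀ x ∈ P, f l x ∈ P) := by
    intro y hy hreg
    have hr : ∀ x ∈ closedBall (0 : E) ρ, A x = y → RegularAt A x := fun x hx h =>
      hreg x (mem_ball_zero_iff.2 (by linarith [mem_closedBall_zero_iff.1 hx])) h
    obtain ⟨P, hP⟩ := (finite_regular_fiber hAc' y hr).exists_finset
    refine ⟨P, hP, fun x hx => hr x ((hP x).1 hx).1 ((hP x).1 hx).2, fun l x hx => ?_⟩
    obtain ⟨hx1, hx2⟩ := (hP x).1 hx
    have hxn := mem_closedBall_zero_iff.1 hx1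
    have h1 := key x hxn (hx2.symm ▸ hy) l
    exact (hP _).2 ⟨mem_closedBall_zero_iff.2 h1.le,
      (hAinv l x (hBR (by linarith)) (hBR (by linarith))).trans hx2⟩
  -- the base point
  have hψopen : ψ '' O ∈ 𝓝 (ψ w₀) := by
    have hd := (hasStrictFDerivAt_id (𝕜 := ℝ) w₀).add
      (((hasStrictFDerivAt_norm_sq w₀).const_mul s⁻¹).smul_const e)
    set D := ContinuousLinearMap.id ℝ E +
      (s⁻¹ • 2 • innerSL ℝ w₀).smulRight e with hD
    have hd' : HasStrictFDerivAt ψ D w₀ := hd
    have hdet : D.det ≠ 0 := by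
      intro h0
      have := LinearMap.bot_lt_ker_of_det_eq_zero h0
      obtain ⟨v, hv, hv0⟩ := Submodule.exists_mem_ne_zero_of_ne_bot this.ne'
      have hv' : v + (s⁻¹ * (2 * ⟪w₀, v⟫)) • e = 0 := by
        simpa [hD, two_nsmul, two_mul, mul_add] using hv
      have h1 : ‖v‖ ≤ s⁻¹ * (2 * (η / 4 * ‖v‖)) := by
        conv_lhs => rw [eq_neg_of_add_eq_zero_left hv']
        rw [norm_neg, norm_smul, he, mul_one, Real.norm_eq_abs, abs_mul, abs_inv, abs_of_pos hs,
          abs_mul, abs_two]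
        gcongr
        exact hw₀n ▸ abs_real_inner_le_norm w₀ v
      have hvp : 0 < ‖v‖ := norm_pos_iff.2 hv0
      rw [le_inv_mul_iff₀ hs] at h1
      nlinarith
    have hd'' : HasStrictFDerivAt ψ
        ((D.toContinuousLinearEquivOfDetNeZero hdet : E ≃L[ℝ] E) : E →L[ℝ] E) w₀ := by
      simpa using hd'
    rw [← hd''.map_nhds_eq_of_equiv]
    exact image_mem_map ((isOpen_ball.inter isOpen_ball).mem_nhds hw₀O)
  have hψw₀ : ‖ψ w₀‖ < η := by
    refine (norm_add_le _ _).trans_lt ?_
    rw [hw₀n, norm_smul, he, mul_one, Real.norm_eq_abs, abs_of_nonneg (by positivity)]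
    have : s⁻¹ * (η / 4) ^ 2 ≤ η / 4 := by
      rw [inv_mul_le_iff₀ hs]; nlinarith
    linarith
  have hCfix : IsClosed (ψ '' {x ∈ closedBall (0 : E) ρ | ∀ k, f k x = x}) := by
    suffices hcl : IsClosed {x ∈ closedBall (0 : E) ρ | ∀ k, f k x = x} from
      (((isCompact_closedBall 0 ρ).of_isClosed_subset hcl fun x hx => hx.1).image hψc).isClosed
    have : {x ∈ closedBall (0 : E) ρ | ∀ k, f k x = x}
        = ⋂ k, closedBall 0 ρ ∩ (fun x => f k x - x) ⁻¹' {0} := by
      ext x; simp [sub_eq_zero, forall_and]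
    rw [this]
    exact isClosed_iInter fun k => (((hf.cont_right k).mono
      (closedBall_subset_closedBall (by linarith))).sub
        continuousOn_id).preimage_isClosed_of_isClosed isClosed_closedBall isClosed_singleton
  have hCout : IsClosed (ψ '' (closedBall (0 : E) ρ \ O)) :=
    ((isCompact_closedBall 0 ρ).diff (isOpen_ball.inter isOpen_ball) |>.image hψc).isClosed
  -- a value with exactly one fixed preimage
  obtain ⟨y₂, ⟨⟨hy₂, hy₂O⟩, hy₂out⟩, hy₂g⟩ := exists_good_value μ hgood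
    ((isOpen_ball (x := (0 : E)) (ε := η)).inter isOpen_interior |>.sdiff hCout)
    ⟨ψ w₀, ⟨mem_ball_zero_iff.2 hψw₀, mem_interior_iff_mem_nhds.2 hψopen⟩, by
      rintro ⟨b, ⟨hb, hbO⟩, hbe⟩
      refine hbO ?_
      have := hψinj b w₀ (by rw [hw₀n]; linarith [mem_closedBall_zero_iff.1 hb]) hbe
      exact this ▸ hw₀O⟩
  obtain ⟨w₂, hw₂O, hw₂⟩ := interior_subset hy₂O
  -- a value without fixed preimage
  obtain ⟨y₁, ⟨hy₁, hy₁F⟩, hy₁g⟩ := exists_good_value μ hgood
    ((isOpen_ball (x := (0 : E)) (ε := η)).sdiff hCfix) (by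
      obtain ⟨a, ha, k, hk⟩ := hmoved (η / 4) (by positivity)
      refine ⟨ψ a, mem_ball_zero_iff.2 ?_, ?_⟩
      · refine (norm_add_le _ _).trans_lt ?_
        rw [norm_smul, he, mul_one, Real.norm_eq_abs, abs_of_nonneg (by positivity)]
        have : s⁻¹ * ‖a‖ ^ 2 ≤ η / 4 := by
          rw [inv_mul_le_iff₀ hs]; nlinarith [norm_nonneg a]
        linarith
      · rintro ⟨b, ⟨hb, hbfix⟩, hbe⟩
        have := hψinj b a (by linarith [mem_closedBall_zero_iff.1 hb]) hbe
        exact hk (this ▸ hbfix k))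
  obtain ⟨P₁, hP₁, hr₁, hinv₁⟩ := hfib y₁ (mem_ball_zero_iff.1 hy₁) hy₁g
  obtain ⟨P₂, hP₂, hr₂, hinv₂⟩ := hfib y₂ (mem_ball_zero_iff.1 hy₂) hy₂g
  -- orientation
  have hsign : ∀ y (P : Finset E), ‖y‖ < η → (∀ x, x ∈ P ↔ x ∈ closedBall 0 ρ ∧ A x = y) →
      (∀ x ∈ P, RegularAt A x) → (∀ l, ∀ x ∈ P, f l x ∈ P) →
      ∀ l, ∀ x ∈ P, dsign A (f l x) = dsign A x := by
    intro y P hy hP hr hinv l x hx
    obtain ⟨hx1, hx2⟩ := (hP x).1 hx
    have hxn := mem_closedBall_zero_iff.1 hx1
    have hxR : x ∈ ball (0 : E) R := mem_ball_zero_iff.2 (by linarith)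
    have hlx : ‖f l x‖ < ρ := key x hxn (hx2.symm ▸ hy) l
    have hev : ∀ᶠ w in 𝓝 x, A (f l w) = A w := by
      have h2 : Tendsto (f l) (𝓝 x) (𝓝 (f l x)) :=
        (hf.cont_right l).continuousAt (closedBall_mem_nhds_of_mem hxR)
      filter_upwards [isOpen_ball.mem_nhds hxR, h2.eventually
        (isOpen_ball.mem_nhds (show f l x ∈ ball (0 : E) R from
          mem_ball_zero_iff.2 (by linarith)))] with w hw hw'
      exact hAinv l w (ball_subset_closedBall hw) (ball_subset_closedBall hw')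
    obtain ⟨hgr, heq⟩ := regular_of_comp (hr x hx) (hr _ (hinv l x hx))
      ((hl x hxR).isBigO l) hev
    have hidw : (f l) =ᶠ[𝓝 w₀] id :=
      eventually_of_mem ((isOpen_ball.inter isOpen_ball).mem_nhds hw₀O) fun w hw => hOfix w hw l
    have hrw : RegularAt (f l) w₀ :=
      ⟨ContinuousLinearEquiv.refl ℝ E, (hasFDerivAt_id w₀).congr_of_eventuallyEq hidw⟩
    have hone : dsign (f l) w₀ = 1 := by
      simp [dsign, hidw.fderiv_eq, ContinuousLinearMap.det]
    have hmaps : ∀ w ∈ closedBall (0 : E) R₁, f l w ∈ closedBall (0 : E) R := fun w hw =>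
      mem_closedBall_zero_iff.2 (hKR₁ l w (mem_closedBall_zero_iff.1 hw)).le
    have hinj : InjOn (f l) (closedBall (0 : E) R₁) := fun u hu v hv h => by
      rw [← hf.inv_apply l (closedBall_subset_closedBall hR₁R hu) (hmaps u hu), h,
        hf.inv_apply l (closedBall_subset_closedBall hR₁R hv) (hmaps v hv)]
    have hw₀ρ : ‖w₀‖ ≤ ρ := (mem_ball_zero_iff.1 hw₀O.2).le
    have h := dsign_eq_of_injOn
      ((hf.cont_right l).mono (closedBall_subset_closedBall hR₁R)) hinj
      (mem_closedBall_zero_iff.2 (show ‖x‖ ≤ R₁ by linarith))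
      (mem_closedBall_zero_iff.2 (show ‖w₀‖ ≤ R₁ by linarith)) hgr hrw
      (fun w hw hmem => by
        rw [dist_zero_right] at hw
        have h1 : ‖f l x‖ < ρ₀ := hKρ' l x (by linarith)
        have h2 : ‖f l w₀‖ < ρ₀ := hKρ' l w₀ (by linarith)
        have h3 : f l w ∈ ball (0 : E) ρ₀ := (convex_ball (0 : E) ρ₀).segment_subset
          (mem_ball_zero_iff.2 h1) (mem_ball_zero_iff.2 h2) hmem
        have h4 := hKρ₀ l⁻¹ (f l w) (mem_ball_zero_iff.1 h3).le
        rw [hf.inv_apply l (hBR hw.le) (hmaps w (mem_closedBall_zero_iff.2 hw.le)), hw] at h4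
        exact lt_irrefl _ h4)
    rw [heq, h, hone, mul_one]
  have hσ₁ := hsign y₁ P₁ (mem_ball_zero_iff.1 hy₁) hP₁ hr₁ hinv₁
  have hσ₂ := hsign y₂ P₂ (mem_ball_zero_iff.1 hy₂) hP₂ hr₂ hinv₂
  have hd₁ : (p : ℤ) ∣ ∑ x ∈ P₁, dsign A x := by
    refine dvd_sum_of_invariant hf hp P₁ (fun x hx => hBR (by
      linarith [mem_closedBall_zero_iff.1 ((hP₁ x).1 hx).1])) hinv₁ (fun x hx => ?_) _ hσ₁
    obtain ⟨hx1, hx2⟩ := (hP₁ x).1 hx
    by_contra h
    push Not at h
    refine hy₁F ⟨x, ⟨hx1, h⟩, ?_⟩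
    rw [← hx2, hAfix x (hBR (by linarith [mem_closedBall_zero_iff.1 hx1])) h]
  have hw₂P : w₂ ∈ P₂ := (hP₂ _).2 ⟨ball_subset_closedBall hw₂O.2, (hAO w₂ hw₂O).trans hw₂⟩
  classical
  have hd₂ : (p : ℤ) ∣ ∑ x ∈ P₂.erase w₂, dsign A x := by
    refine dvd_sum_of_invariant hf hp _ (fun x hx => hBR (by
      linarith [mem_closedBall_zero_iff.1 ((hP₂ x).1 (Finset.mem_of_mem_erase hx)).1]))
      (fun l x hx => Finset.mem_erase.2 ⟨fun h => ?_, hinv₂ l x (Finset.mem_of_mem_erase hx)⟩)
      (fun x hx => ?_) _ (fun l x hx => hσ₂ l x (Finset.mem_of_mem_erase hx))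
    · have hxP := Finset.mem_of_mem_erase hx
      have hxR := mem_closedBall_zero_iff.1 ((hP₂ x).1 hxP).1
      have hlR := mem_closedBall_zero_iff.1 ((hP₂ _).1 (hinv₂ l x hxP)).1
      have := hf.inv_apply l (hBR (show ‖x‖ ≤ R₁ by linarith))
        (hBR (show ‖f l x‖ ≤ R₁ by linarith))
      rw [h, hOfix w₂ hw₂O] at this
      exact Finset.ne_of_mem_erase hx this.symm
    · obtain ⟨hx1, hx2⟩ := (hP₂ x).1 (Finset.mem_of_mem_erase hx)
      by_contra h
      push Not at h
      have hxA : ψ x = y₂ := by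
        rw [← hAfix x (hBR (by linarith [mem_closedBall_zero_iff.1 hx1])) h]; exact hx2
      refine Finset.ne_of_mem_erase hx (hψinj x w₂ ?_ (hxA.trans hw₂.symm))
      linarith [mem_closedBall_zero_iff.1 hx1, mem_ball_zero_iff.1 hw₂O.2]
  have hcmp := degree_compare (f₁ := fun w => A w - y₁) (f₂ := fun w => A w - y₂)
    (hAc'.sub continuousOn_const) (hAc'.sub continuousOn_const) P₁ P₂
    (fun x => by simp only [sub_eq_zero]; exact hP₁ x)
    (fun x => by simp only [sub_eq_zero]; exact hP₂ x)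
    (fun x hx => regularAt_sub_const (hr₁ x hx) _) (fun x hx => regularAt_sub_const (hr₂ x hx) _)
    (fun w hw t ht h => by
      have h1 : A w = (1 - t) • y₁ + t • y₂ := by
        rw [← sub_eq_zero, ← h]; simp only [smul_sub, sub_smul, one_smul]; abel
      have h2 : A w ∈ ball (0 : E) η := h1 ▸ (convex_ball (0 : E) η) hy₁ hy₂
        (by linarith [ht.2]) ht.1 (by ring)
      linarith [hsphere w hw, mem_ball_zero_iff.1 h2])
  simp only [dsign_sub_const] at hcmp
  rw [hcmp, ← Finset.add_sum_erase _ _ hw₂P] at hd₁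
  exact not_dvd_dsign hpp A w₂ ((dvd_add_left hd₂).1 hd₁)

end

end Vale.Agent.P228
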