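import Vale.Agent.P228.Defs
import Vale.Agent.P228.Local

/-!
Passing from a manifold to a chart: the Baire category step and the finite germ bound.
-/

namespace Vale.Agent.P228

open Metric Set Function Filter Asymptotics
open scoped Topology

noncomputable section

variable {E : Type*} [NormedAddCommGroup E] [InnerProductSpace ℝ E] [FiniteDimensional ℝ E]
variable {M : Type*} [TopologicalSpace M] [ChartedSpace E M]
variable {G : Type*} [Group G] [TopologicalSpace G] [IsTopologicalGroup G] [MulAction G M]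
  [ContinuousSMul G M]

/-- The action read in one chart. -/
def chartRep (e : OpenPartialHomeomorph M E) (g : G) (z : E) : E := e (g • e.symm z)

/-- On the set `s` in `G` the closed ball stays in the chart domain. -/
def MapsBall (e : OpenPartialHomeomorph M E) (s : Set G) (c : E) (R : ℝ) : Prop :=
  closedBall c R ⊆ e.target ∧ ∀ g ∈ s, ∀ z ∈ closedBall c R, g • e.symm z ∈ e.source

omit [InnerProductSpace ℝ E] [FiniteDimensional ℝ E] [IsTopologicalGroup G] in
lemma continuousOn_chartRep {e : OpenPartialHomeomorph M E} {s : Set G} {c : E} {R : ℝ}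
    (h : MapsBall e s c R) :
    ContinuousOn (fun q : G × E => chartRep e q.1 q.2) (s ×ˢ closedBall c R) := by
  have h1 : ContinuousOn (fun q : G × E => q.1 • e.symm q.2) (s ×ˢ closedBall c R) :=
    continuousOn_fst.smul (e.continuousOn_symm.comp continuousOn_snd fun q hq => h.1 hq.2)
  exact e.continuousOn.comp h1 fun q hq => h.2 q.1 hq.1 q.2 hq.2

omit [FiniteDimensional ℝ E] in
lemma isLocalAction_chartRep {K : Type*} [CommGroup K] [TopologicalSpace K] [MulAction K M]
    [ContinuousSMul K M] {e : OpenPartialHomeomorph M E} {c : E} {R : ℝ}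
    (h : MapsBall (G := K) e univ c R) :
    IsLocalAction (fun k => chartRep (G := K) e k) c R where
  cont := continuousOn_chartRep h
  one x hx := by simp [chartRep, e.right_inv (h.1 hx)]
  mul k l x hx _ := by
    simp only [chartRep]
    rw [e.left_inv (h.2 l (mem_univ _) x hx), mul_smul]

/-- Near `1` the action moves a compact ball in a chart by little. -/
lemma eventually_small {e : OpenPartialHomeomorph M E} {c : E} {R δ : ℝ}
    (hR : closedBall c R ⊆ e.target) (hδ : 0 < δ) :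
    ∀ᶠ g in 𝓝 (1 : G), ∀ z ∈ closedBall c R,
      g • e.symm z ∈ e.source ∧ dist (chartRep e g z) z < δ := by
  refine (isCompact_closedBall c R).eventually_forall_of_forall_eventually fun z hz => ?_
  have hs : e.symm z ∈ e.source := e.map_target (hR hz)
  have h1 : ContinuousAt (fun q : G × E => q.1 • e.symm q.2) (1, z) :=
    continuousAt_fst.smul ((e.continuousAt_symm (hR hz)).comp continuousAt_snd)
  have h2 : ∀ᶠ q in 𝓝 ((1 : G), z), q.1 • e.symm q.2 ∈ e.source :=
    h1.eventually (e.open_source.mem_nhds (by simpa using hs))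
  have h3 : ContinuousAt (fun q : G × E => chartRep e q.1 q.2) (1, z) :=
    ContinuousAt.comp (f := fun q : G × E => q.1 • e.symm q.2)
      (e.continuousAt (by simpa using hs)) h1
  have h4 : ∀ᶠ q in 𝓝 ((1 : G), z), dist (chartRep e q.1 q.2) q.2 < δ :=
    (h3.dist continuousAt_snd).eventually_lt_const
      (by simpa [chartRep, e.right_inv (hR hz)] using hδ)
  exact h2.and h4

omit [InnerProductSpace ℝ E] [FiniteDimensional ℝ E] in
lemma exists_closedBall_subset_target (e : OpenPartialHomeomorph M E) {z : E} (hz : z ∈ e.target) :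
    ∃ R > 0, closedBall z R ⊆ e.target := by
  obtain ⟨R, hR, h⟩ := Metric.nhds_basis_closedBall.mem_iff.1 (e.open_target.mem_nhds hz)
  exact ⟨R, hR, h⟩

/-- Baire category: near some point of a closed invariant set the elements close to `1` are
uniformly pointwise Lipschitz at the points of that set. -/
theorem exists_portion [T2Space G] [LocallyCompactSpace G]
    (hact : IsPointwiseLipschitzAction E G M) {e : OpenPartialHomeomorph M E}
    (he : e ∈ atlas E M) {S : Set M} (hS : IsClosed S) (hinv : ∀ g : G, ∀ x ∈ S, g • x ∈ S)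
    {x : M} (hx : x ∈ S) (hxe : x ∈ e.source) :
    ∃ z₀ ∈ e.target, e.symm z₀ ∈ S ∧ ∃ r > 0, closedBall z₀ r ⊆ e.target ∧
      ∃ U ∈ 𝓝 (1 : G), ∃ m ρ : ℝ, 0 < ρ ∧ ∀ u ∈ U, ∀ z ∈ closedBall z₀ r, e.symm z ∈ S →
        ∀ w, dist w z < ρ → ‖chartRep e u w - chartRep e u z‖ ≤ m * ‖w - z‖ := by
  set c := e x
  obtain ⟨R₂, hR₂, hsub⟩ := exists_closedBall_subset_target e (e.map_source hxe)
  set R := R₂ / 2
  have hR : 0 < R := by positivity
  have hnb : {g : G | ∀ z ∈ closedBall c R₂, g • e.symm z ∈ e.source ∧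
      dist (chartRep e g z) z < R / 4} ∈ 𝓝 (1 : G) := eventually_small hsub (by positivity)
  have hnb' : {g : G | ∀ z ∈ closedBall c R₂, g⁻¹ • e.symm z ∈ e.source} ∈ 𝓝 (1 : G) := by
    have h := (continuous_inv.tendsto' (1 : G) 1 inv_one).eventually
      (eventually_small (e := e) hsub (show (0 : ℝ) < 1 by norm_num))
    exact h.mono fun g hg z hz => (hg z hz).1
  obtain ⟨N, hNo, hN1, hN⟩ : ∃ N : Set G, IsOpen N ∧ (1 : G) ∈ N ∧ ∀ g ∈ N, ∀ z ∈ closedBall c R₂,
      g • e.symm z ∈ e.source ∧ dist (chartRep e g z) z < R / 4 ∧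
        g⁻¹ • e.symm z ∈ e.source := by
    obtain ⟨N, hN, hNo, hN1⟩ := _root_.mem_nhds_iff.1 (inter_mem hnb hnb')
    exact ⟨N, hNo, hN1, fun g hg z hz =>
      ⟨((hN hg).1 z hz).1, ((hN hg).1 z hz).2, (hN hg).2 z hz⟩⟩
  let S' : Set E := ball c R ∩ (closedBall c R₂ ∩ e.symm ⁻¹' S)
  have hS' : IsLocallyClosed S' := isOpen_ball.isLocallyClosed.inter
    ((e.continuousOn_symm.mono hsub).preimage_isClosed_of_isClosed isClosed_closedBall
      hS).isLocallyClosed
  have : LocallyCompactSpace S' := hS'.locallyCompactSpace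
  have : LocallyCompactSpace N := hNo.locallyCompactSpace
  have : Nonempty (N × S') := ⟨⟨1, hN1⟩, ⟨c, mem_ball_self hR, mem_closedBall_self hR₂.le, by
    simpa [c, e.left_inv hxe] using hx⟩⟩
  let rad : ℕ → ℝ := fun m => R / (4 * ((m : ℝ) + 1))
  have hrad : ∀ m, 0 < rad m ∧ rad m ≤ R / 4 := fun m => ⟨by positivity, by
    simp only [rad]
    gcongr
    linarith [m.cast_nonneg (α := ℝ)]⟩
  let T : ℕ → Set (N × S') := fun m => {q | ∀ v : E, ‖v‖ < rad m →
    ‖chartRep e (q.1 : G) (q.2 + v) - chartRep e (q.1 : G) q.2‖ ≤ m * ‖v‖ ∧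
    ‖chartRep e (q.1 : G)⁻¹ (chartRep e (q.1 : G) q.2 + v)
      - chartRep e (q.1 : G)⁻¹ (chartRep e (q.1 : G) q.2)‖ ≤ m * ‖v‖}
  have hMB : MapsBall e N c R₂ := ⟨hsub, fun g hg z hz => (hN g hg z hz).1⟩
  have hMB' : MapsBall e N⁻¹ c R₂ := ⟨hsub, fun g hg z hz => by
    simpa using (hN g⁻¹ (mem_inv.1 hg) z hz).2.2⟩
  have hR₂R : R₂ = 2 * R := by simp only [R]; ring
  have hmemv : ∀ (q : N × S') (v : E), ‖v‖ ≤ R / 4 →
      (q.2 : E) + v ∈ closedBall c R₂ ∧
        chartRep e (q.1 : G) q.2 + v ∈ closedBall c R₂ := by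
    intro q v hv
    have h1 := mem_ball.1 q.2.2.1
    have h2 := (hN q.1 q.1.2 q.2 q.2.2.2.1).2.1
    constructor <;> rw [mem_closedBall]
    · have : dist ((q.2 : E) + v) q.2 = ‖v‖ := by simp
      linarith [dist_triangle ((q.2 : E) + v) q.2 c]
    · have : dist (chartRep e (q.1 : G) q.2 + v) (chartRep e (q.1 : G) q.2) = ‖v‖ := by simp
      linarith [dist_triangle (chartRep e (q.1 : G) q.2 + v) (chartRep e (q.1 : G) q.2) c,
        dist_triangle (chartRep e (q.1 : G) q.2) q.2 c]
  have hcq : Continuous fun q : N × S' => chartRep e (q.1 : G) q.2 :=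
    (continuousOn_chartRep hMB).comp_continuous (f := fun q : N × S' => ((q.1 : G), (q.2 : E)))
      (by fun_prop) fun q => ⟨q.1.2, q.2.2.2.1⟩
  have hclosed : ∀ m, IsClosed (T m) := by
    intro m
    simp only [T]
    rw [show {q : N × S' | _} = ⋂ (v : E) (_ : ‖v‖ < rad m), {q : N × S' |
      ‖chartRep e (q.1 : G) (q.2 + v) - chartRep e (q.1 : G) q.2‖ ≤ m * ‖v‖ ∧
      ‖chartRep e (q.1 : G)⁻¹ (chartRep e (q.1 : G) q.2 + v)
        - chartRep e (q.1 : G)⁻¹ (chartRep e (q.1 : G) q.2)‖ ≤ m * ‖v‖} from by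
      ext q; simp only [mem_iInter]; exact Iff.rfl]
    refine isClosed_iInter fun v => isClosed_iInter fun hv => ?_
    have hv' : ‖v‖ ≤ R / 4 := hv.le.trans (hrad m).2
    have c1 : Continuous fun q : N × S' => chartRep e (q.1 : G) ((q.2 : E) + v) :=
      (continuousOn_chartRep hMB).comp_continuous
        (f := fun q : N × S' => ((q.1 : G), (q.2 : E) + v)) (by fun_prop)
        fun q => ⟨q.1.2, (hmemv q v hv').1⟩
    have c2 : Continuous fun q : N × S' =>
        chartRep e (q.1 : G)⁻¹ (chartRep e (q.1 : G) q.2 + v) :=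
      (continuousOn_chartRep hMB').comp_continuous
        (f := fun q : N × S' => ((q.1 : G)⁻¹, chartRep e (q.1 : G) q.2 + v))
        ((continuous_subtype_val.comp continuous_fst).inv.prodMk (hcq.add continuous_const))
        fun q => ⟨by simp, (hmemv q v hv').2⟩
    have c3 : Continuous fun q : N × S' =>
        chartRep e (q.1 : G)⁻¹ (chartRep e (q.1 : G) q.2) :=
      (continuousOn_chartRep hMB').comp_continuous
        (f := fun q : N × S' => ((q.1 : G)⁻¹, chartRep e (q.1 : G) q.2))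
        ((continuous_subtype_val.comp continuous_fst).inv.prodMk hcq)
        fun q => ⟨by simp, by simpa using (hmemv q 0 (by simp; positivity)).2⟩
    exact (isClosed_le (c1.sub hcq).norm continuous_const).inter
      (isClosed_le (c2.sub c3).norm continuous_const)
  have hcover : ⋃ m, T m = univ := by
    refine eq_univ_of_forall fun q => ?_
    have hzT : (q.2 : E) ∈ e.target := hsub q.2.2.2.1
    have hgs : (q.1 : G) • e.symm q.2 ∈ e.source := (hN q.1 q.1.2 q.2 q.2.2.2.1).1
    obtain ⟨C₁, hC₁⟩ := (hact q.1 e he e he (e.symm q.2) (e.map_target hzT) hgs).bound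
    obtain ⟨C₂, hC₂⟩ := (hact (q.1 : G)⁻¹ e he e he ((q.1 : G) • e.symm q.2) hgs
      (by rw [inv_smul_smul]; exact e.map_target hzT)).bound
    rw [e.right_inv hzT] at hC₁
    obtain ⟨δ₁, hδ₁, h₁⟩ := Metric.eventually_nhds_iff.1 hC₁
    obtain ⟨δ₂, hδ₂, h₂⟩ := Metric.eventually_nhds_iff.1 hC₂
    obtain ⟨m, hm⟩ := exists_nat_gt (max (max C₁ C₂) (R / min δ₁ δ₂))
    refine mem_iUnion.2 ⟨m, fun v hv => ?_⟩
    have hvδ : ‖v‖ < min δ₁ δ₂ := by
      refine hv.trans ?_
      simp only [rad]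
      rw [div_lt_iff₀ (by positivity)]
      have := (le_max_right _ _).trans_lt hm
      rw [div_lt_iff₀ (by positivity)] at this
      have : 0 < min δ₁ δ₂ := lt_min hδ₁ hδ₂
      nlinarith
    have hm' := (le_max_left _ _).trans_lt hm
    constructor
    · have h := h₁ (y := (q.2 : E) + v)
        (by rw [dist_eq_norm, add_sub_cancel_left]; exact (lt_min_iff.1 hvδ).1)
      simp only [add_sub_cancel_left] at h
      exact h.trans (by gcongr; exact ((le_max_left _ _).trans_lt hm').le)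
    · have h := h₂ (y := chartRep e (q.1 : G) q.2 + v)
        (by rw [dist_eq_norm, chartRep, add_sub_cancel_left]; exact (lt_min_iff.1 hvδ).2)
      simp only [chartRep, add_sub_cancel_left] at h
      simp only [chartRep, e.left_inv hgs]
      exact h.trans (by gcongr; exact ((le_max_right _ _).trans_lt hm').le)
  obtain ⟨m, hm⟩ := nonempty_interior_of_iUnion_of_closed hclosed hcover
  obtain ⟨⟨g₀, z₀⟩, hq⟩ := hm
  obtain ⟨O₁, hO₁, O₂, hO₂, hOT⟩ := mem_nhds_prod_iff.1 (mem_interior_iff_mem_nhds.1 hq)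
  obtain ⟨O₁', hO₁', hO₁sub⟩ := (mem_nhds_subtype N g₀ O₁).1 hO₁
  obtain ⟨O₂', hO₂', hO₂sub⟩ := (mem_nhds_subtype S' z₀ O₂).1 hO₂
  obtain ⟨r, hr, hrsub⟩ :=
    Metric.nhds_basis_ball.mem_iff.1 (inter_mem hO₂' (isOpen_ball.mem_nhds z₀.2.1))
  have hU : {u : G | (g₀ : G) * u ∈ O₁' ∩ N} ∩ {u | ∀ z ∈ closedBall c R₂,
      u • e.symm z ∈ e.source ∧ dist (chartRep e u z) z < r / 2} ∈ 𝓝 (1 : G) :=
    inter_mem ((continuous_const_mul (g₀ : G)).tendsto' 1 g₀ (mul_one _)
      (inter_mem hO₁' (hNo.mem_nhds g₀.2))) (eventually_small hsub (half_pos hr))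
  refine ⟨z₀, hsub z₀.2.2.1, z₀.2.2.2, r / 3, by positivity, ?_, _, hU,
    (m : ℝ) * m, rad m / ((m : ℝ) + 1), div_pos (hrad m).1 (by positivity), ?_⟩
  · intro z hz
    refine hsub (mem_closedBall.2 ?_)
    have := mem_ball.1 (hrsub (closedBall_subset_ball (by linarith) hz)).2
    linarith
  rintro u ⟨hu1, hu2⟩ z hz hzS w hw
  have hzr : z ∈ ball (z₀ : E) r := closedBall_subset_ball (by linarith) hz
  have hzc : z ∈ ball c R := (hrsub hzr).2
  have hzB : z ∈ closedBall c R₂ :=
    closedBall_subset_closedBall (by linarith) (ball_subset_closedBall hzc)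
  obtain ⟨hus, hud⟩ := hu2 z hzB
  have hx''r : chartRep e u z ∈ ball (z₀ : E) r := mem_ball.2 (by
    linarith [dist_triangle (chartRep e u z) z z₀, mem_closedBall.1 hz])
  have hx''S : chartRep e u z ∈ S' := by
    have h := (hrsub hx''r).2
    refine ⟨h, closedBall_subset_closedBall (by linarith) (ball_subset_closedBall h), ?_⟩
    simp only [mem_preimage, chartRep, e.left_inv hus]
    exact hinv u _ hzS
  have hzS' : z ∈ S' := ⟨hzc, hzB, hzS⟩
  have hA := hOT (mk_mem_prod (hO₁sub (show (⟨(g₀ : G) * u, hu1.2⟩ : N).1 ∈ O₁' from hu1.1))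
    (hO₂sub (show (⟨z, hzS'⟩ : S').1 ∈ O₂' from (hrsub hzr).1)))
  have hB := hOT (mk_mem_prod (hO₁sub (show (g₀ : N).1 ∈ O₁' from mem_of_mem_nhds hO₁'))
    (hO₂sub (show (⟨_, hx''S⟩ : S').1 ∈ O₂' from (hrsub hx''r).1)))
  have hwz : ‖w - z‖ < rad m / ((m : ℝ) + 1) := by rwa [← dist_eq_norm]
  have hdivle : rad m / ((m : ℝ) + 1) ≤ rad m :=
    div_le_self (hrad m).1.le (by linarith [m.cast_nonneg (α := ℝ)])
  have hA1 := (hA (w - z) (lt_of_lt_of_le hwz hdivle)).1
  simp only [add_sub_cancel] at hA1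
  have hg0u : ∀ y ∈ closedBall c R₂, chartRep e (g₀ : G)⁻¹ (chartRep e ((g₀ : G) * u) y)
      = chartRep e u y := by
    intro y hy
    simp only [chartRep]
    rw [e.left_inv (hN _ hu1.2 y hy).1, mul_smul, inv_smul_smul]
  have hg0x : chartRep e (g₀ : G) (chartRep e u z) = chartRep e ((g₀ : G) * u) z := by
    simp only [chartRep]
    rw [e.left_inv hus, mul_smul]
  have hwB : w ∈ closedBall c R₂ := mem_closedBall.2 (by
    have := (hrad m).2
    linarith [dist_triangle w z c, mem_ball.1 hzc, lt_of_lt_of_le hw hdivle])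
  set v := chartRep e ((g₀ : G) * u) w - chartRep e ((g₀ : G) * u) z
  have hv : ‖v‖ < rad m := by
    refine hA1.trans_lt ?_
    calc (m : ℝ) * ‖w - z‖ ≤ ((m : ℝ) + 1) * ‖w - z‖ := by gcongr; linarith
      _ < ((m : ℝ) + 1) * (rad m / ((m : ℝ) + 1)) := by gcongr
      _ = rad m := by field_simp
  have hB1 := (hB v hv).2
  simp only [hg0x, v, add_sub_cancel, hg0u w hwB, hg0u z hzB] at hB1
  refine hB1.trans ?_
  rw [mul_assoc]
  gcongr

/-- If an open subgroup fixes a neighbourhood of a point, the finitely many germs give a uniform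
bound there. -/
lemma unifLipAt_of_germ {K : Type*} [CommGroup K] [TopologicalSpace K] [IsTopologicalGroup K]
    [CompactSpace K] [MulAction K M] (hact : IsPointwiseLipschitzAction E K M)
    {e : OpenPartialHomeomorph M E} (he : e ∈ atlas E M) {z : E} (hz : z ∈ e.target)
    (hmaps : ∀ k : K, k • e.symm z ∈ e.source) {S : Subgroup K} (hS : IsOpen (S : Set K))
    (hfix : ∀ᶠ y in 𝓝 (e.symm z), ∀ s ∈ S, s • y = y) :
    UnifLipAt (fun k : K => chartRep e k) z := by
  classical
  have : DiscreteTopology (K ⧸ S) := QuotientGroup.discreteTopology hS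
  have : Finite (K ⧸ S) := finite_of_compact_of_discrete
  have hb : ∀ q : K ⧸ S, ∃ C, ∀ᶠ w in 𝓝 z,
      ‖chartRep e q.out w - chartRep e q.out z‖ ≤ C * ‖w - z‖ := by
    intro q
    obtain ⟨C, hC⟩ := (hact q.out e he e he (e.symm z) (e.map_target hz) (hmaps q.out)).bound
    rw [e.right_inv hz] at hC
    exact ⟨C, hC⟩
  choose C hC using hb
  obtain ⟨m, hm⟩ := (finite_range C).bddAbove
  have hev : ∀ᶠ w in 𝓝 z, (∀ q : K ⧸ S,
      ‖chartRep e q.out w - chartRep e q.out z‖ ≤ C q * ‖w - z‖) ∧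
      ∀ s ∈ S, s • e.symm w = e.symm w :=
    (eventually_all.2 hC).and ((e.continuousAt_symm hz).eventually hfix)
  obtain ⟨ρ, hρ, hρ'⟩ := Metric.eventually_nhds_iff.1 hev
  refine ⟨m, ρ, hρ, fun k w hw => ?_⟩
  obtain ⟨⟨s, hs⟩, hks⟩ := QuotientGroup.mk_out_eq_mul S k
  have hrep : ∀ v, dist v z < ρ →
      chartRep e k v = chartRep e (k : K ⧸ S).out v := by
    intro v hv
    simp only [chartRep]
    rw [hks, mul_smul, (hρ' hv).2 s hs]
  simp only
  rw [hrep w hw, hrep z (by simpa using hρ)]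
  refine ((hρ' hw).1 _).trans ?_
  gcongr
  exact hm (mem_range_self _)

end

end Vale.Agent.P228
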