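import Mathlib

/-!
Pointwise Lipschitz actions on manifolds, read in charts.
-/

namespace Vale.Agent.P228

open scoped Topology

/-- The action of each group element is pointwise Lipschitz at every point, read in any two
charts of the atlas: for every `g`, charts `e`, `e'` and point `x` with `x` in the domain of `e`
and `g • x` in that of `e'`, there is `C` with `‖e'(g • e⁻¹ z) - e'(g • x)‖ ≤ C ‖z - e x‖` for all
`z` close to `e x`. The constant may depend on `g` and on `x`. -/
def IsPointwiseLipschitzAction (E : Type*) [NormedAddCommGroup E] (G M : Type*) [SMul G M]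
    [TopologicalSpace M] [ChartedSpace E M] : Prop :=
  ∀ g : G, ∀ e ∈ atlas E M, ∀ e' ∈ atlas E M, ∀ x ∈ e.source, g • x ∈ e'.source →
    (fun z => e' (g • e.symm z) - e' (g • x)) =O[𝓝 (e x)] fun z => z - e x

end Vale.Agent.P228
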