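import Vale.Agent.P228.Charts

/-!
Global conclusions for pointwise Lipschitz actions of totally disconnected groups.
-/

namespace Vale.Agent.P228

open Metric Set Function Filter
open scoped Topology RealInnerProductSpace

noncomputable section

variable {E : Type*} [NormedAddCommGroup E] [InnerProductSpace ℝ E] [FiniteDimensional ℝ E]
  [MeasurableSpace E] [BorelSpace E]
variable {M : Type*} [TopologicalSpace M] [T2Space M] [ChartedSpace E M]

omit [InnerProductSpace ℝ E] [FiniteDimensional ℝ E] [MeasurableSpace E] [BorelSpace E]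
  [T2Space M] in
lemma IsPointwiseLipschitzAction.subgroup {G : Type*} [Group G] [MulAction G M]
    (h : IsPointwiseLipschitzAction E G M) (S : Subgroup G) :
    IsPointwiseLipschitzAction E S M :=
  fun g => h g

section OneGroup

variable {K : Type*} [CommGroup K] [TopologicalSpace K] [IsTopologicalGroup K] [CompactSpace K]
  [T2Space K] [TotallyDisconnectedSpace K] [MulAction K M] [ContinuousSMul K M]

omit [TotallyDisconnectedSpace K] [CompactSpace K] [T2Space K] in
lemma pIndices_openSubgroup {p : ℕ} (hpp : p.Prime) (hp : PIndices K p) (S : Subgroup K)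
    (hS : IsOpen (S : Set K)) : PIndices S p := by
  intro T hT
  obtain ⟨a, ha⟩ := hp (T.map S.subtype) (by
    rw [Subgroup.coe_map]
    exact hS.isOpenEmbedding_subtypeVal.isOpenMap _ hT)
  rw [Subgroup.index_map_subtype] at ha
  obtain ⟨b, -, hb⟩ := (Nat.dvd_prime_pow hpp).1 (Dvd.intro _ ha)
  exact ⟨b, hb⟩

/-- Every point has a neighbourhood on which an open subgroup acts trivially. -/
theorem locally_finite_image (hact : IsPointwiseLipschitzAction E K M) {p : ℕ} (hpp : p.Prime)
    (hp : PIndices K p) (x : M) :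
    ∃ S : Subgroup K, IsOpen (S : Set K) ∧ ∀ᶠ y in 𝓝 x, ∀ s ∈ S, s • y = y := by
  set Ω := {x : M | ∃ S : Subgroup K, IsOpen (S : Set K) ∧ ∀ᶠ y in 𝓝 x, ∀ s ∈ S, s • y = y}
  have hΩ : IsOpen Ω := isOpen_iff_mem_nhds.2 fun x ⟨S, hS, hx⟩ =>
    hx.eventually_nhds.mono fun y hy => ⟨S, hS, hy⟩
  have hinv : ∀ g : K, ∀ x ∈ Ωᶜ, g • x ∈ Ωᶜ := by
    rintro g x hx ⟨S, hS, hy⟩
    refine hx ⟨S, hS, ?_⟩
    filter_upwards [((continuous_const_smul g).tendsto x).eventually hy] with y hy s hs
    have := hy s hs
    rwa [smul_smul, mul_comm, ← smul_smul, smul_left_cancel_iff] at this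
  by_contra hcon
  have hx : x ∈ Ωᶜ := hcon
  set e := chartAt E x
  have he : e ∈ atlas E M := chart_mem_atlas E x
  obtain ⟨z₀, hz₀, hz₀S, r, hr, hrT, U, hU, m, ρ, hρ, hb⟩ :=
    exists_portion hact he hΩ.isClosed_compl hinv hx (mem_chart_source E x)
  obtain ⟨U', hU', hU'o, hU'1⟩ := _root_.mem_nhds_iff.1
    (inter_mem hU (eventually_small (G := K) hrT (show (0 : ℝ) < r / 16 by positivity)))
  obtain ⟨N, hN⟩ := ProfiniteGrp.exist_openNormalSubgroup_sub_open_nhds_of_one hU'o hU'1
  let S : Subgroup K := N.toSubgroup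
  have hSo : IsOpen (S : Set K) := N.isOpen'
  have : CompactSpace S := isCompact_iff_compactSpace.1
    (Subgroup.isClosed_of_isOpen S hSo).isCompact
  have hsm : ∀ s ∈ S, ∀ z ∈ closedBall z₀ r,
      s • e.symm z ∈ e.source ∧ dist (chartRep e s z) z < r / 16 :=
    fun s hs => (hU' (hN hs)).2
  have hmaps : MapsBall (G := S) e univ z₀ r := ⟨hrT, fun s _ z hz => (hsm s s.2 z hz).1⟩
  have hloc := isLocalAction_chartRep hmaps
  have hl : ∀ z ∈ ball z₀ r, UnifLipAt (fun s : S => chartRep e s) z := by
    intro z hz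
    have hzB := ball_subset_closedBall hz
    by_cases hzS : e.symm z ∈ Ωᶜ
    · exact ⟨m, ρ, hρ, fun s w hw => hb s (hU' (hN s.2)).1 z hzB hzS w hw⟩
    · obtain ⟨T, hT, hfix⟩ := notMem_compl_iff.1 hzS
      refine unifLipAt_of_germ (hact.subgroup S) he (hrT hzB)
        (fun s => (hsm s s.2 z hzB).1) (S := T.subgroupOf S)
        (hT.preimage continuous_subtype_val) ?_
      exact hfix.mono fun y hy s hs => hy s hs
  have hfix := fixed_of_small_displacement hloc hpp (pIndices_openSubgroup hpp hp S hSo)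
    (fun s z hz => by rw [← dist_eq_norm]; exact (hsm s s.2 z hz).2.le)
    (by linarith) hl
  refine hz₀S ⟨S, hSo, ?_⟩
  have : e.symm '' ball z₀ (r / 2) ∈ 𝓝 (e.symm z₀) :=
    e.symm.image_mem_nhds (by simpa using hz₀) (ball_mem_nhds _ (by positivity))
  filter_upwards [this] with y hy s hs
  obtain ⟨z, hz, rfl⟩ := hy
  have h : e (s • e.symm z) = z := hfix z hz ⟨s, hs⟩
  have hzB : z ∈ closedBall z₀ r :=
    ball_subset_closedBall (ball_subset_ball (by linarith) hz)
  exact e.injOn (hsm s hs z hzB).1 (e.map_target (hrT hzB))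
    (h.trans (e.right_inv (hrT hzB)).symm)

omit [InnerProductSpace ℝ E] [FiniteDimensional ℝ E] [MeasurableSpace E] [BorelSpace E]
  [IsTopologicalGroup K] [CompactSpace K] [T2Space K] [TotallyDisconnectedSpace K] in
lemma isClosed_fixed : IsClosed {x : M | ∀ k : K, k • x = x} := by
  have : {x : M | ∀ k : K, k • x = x} = ⋂ k : K, {x : M | k • x = x} := by
    ext x; rw [mem_iInter]; exact Iff.rfl
  rw [this]
  exact isClosed_iInter fun k => isClosed_eq (continuous_const_smul k) continuous_id

/-- If the group fixes a nonempty open set of a connected manifold, it fixes everything. -/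
theorem fixed_everywhere [PreconnectedSpace M] (hact : IsPointwiseLipschitzAction E K M) {p : ℕ}
    (hpp : p.Prime) (hp : PIndices K p) {W : Set M} (hW : IsOpen W) (hne : W.Nonempty)
    (hfix : ∀ x ∈ W, ∀ k : K, k • x = x) : ∀ (x : M) (k : K), k • x = x := by
  set F := {x : M | ∀ k : K, k • x = x}
  set O := interior F
  suffices hcl : IsClosed O by
    have : O = univ := IsClopen.eq_univ ⟨hcl, isOpen_interior⟩
      (hne.mono (interior_maximal hfix hW))
    intro x k
    exact interior_subset (this ▸ mem_univ x : x ∈ O) k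
  refine isClosed_of_closure_subset fun x hx => ?_
  by_contra hxO
  have hxF : x ∈ F := isClosed_fixed.closure_subset (closure_mono interior_subset hx)
  set e := chartAt E x
  have he : e ∈ atlas E M := chart_mem_atlas E x
  have hxs : x ∈ e.source := mem_chart_source E x
  set c := e x
  -- all group elements map a small ball into the chart
  have hev : ∀ᶠ z in 𝓝 c, ∀ k ∈ (univ : Set K), k • e.symm z ∈ e.source := by
    refine isCompact_univ.eventually_forall_of_forall_eventually fun k _ => ?_
    have h1 : ContinuousAt (fun q : E × K => q.2 • e.symm q.1) (c, k) :=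
      continuousAt_snd.smul ((e.continuousAt_symm (e.map_source hxs)).comp (f := fun q : E × K => q.1) continuousAt_fst)
    exact h1.eventually (e.open_source.mem_nhds (by simpa [c, e.left_inv hxs, hxF k] using hxs))
  obtain ⟨R, hR, hRsub⟩ : ∃ R > 0, closedBall c R ⊆
      {z | z ∈ e.target ∧ ∀ k : K, k • e.symm z ∈ e.source} := by
    obtain ⟨R, hR, h⟩ := Metric.nhds_basis_closedBall.mem_iff.1
      (inter_mem (e.open_target.mem_nhds (e.map_source hxs)) hev)
    exact ⟨R, hR, fun z hz => ⟨(h hz).1, fun k => (h hz).2 k (mem_univ _)⟩⟩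
  have hRT : closedBall c R ⊆ e.target := fun z hz => (hRsub hz).1
  let B := e.symm ⁻¹' O
  -- a fixed point near `c`
  obtain ⟨y, hy, hyO⟩ : ∃ y ∈ ball c (R / 4), e.symm y ∈ O := by
    have : e.symm '' ball c (R / 4) ∈ 𝓝 x := by
      have := e.symm.image_mem_nhds (x := c) (by simpa using e.map_source hxs)
        (ball_mem_nhds c (show (0 : ℝ) < R / 4 by positivity))
      simpa [c, e.left_inv hxs] using this
    obtain ⟨w, ⟨z, hz, rfl⟩, hw⟩ := mem_closure_iff_nhds.1 hx _ this
    exact ⟨z, hz, hw⟩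
  -- nearest point which is not in the interior of the fixed set
  set C := {z ∈ closedBall c (R / 2) | e.symm z ∉ O}
  have hCc : IsCompact C := (isCompact_closedBall c (R / 2)).of_isClosed_subset
    ((e.continuousOn_symm.mono fun z hz =>
      hRT (closedBall_subset_closedBall (by linarith) hz)).preimage_isClosed_of_isClosed
        isClosed_closedBall isOpen_interior.isClosed_compl) fun z hz => hz.1
  have hcC : c ∈ C := ⟨mem_closedBall_self (by positivity), by simpa [c, e.left_inv hxs] using hxO⟩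
  obtain ⟨x', hx'C, hmin⟩ := hCc.exists_isMinOn ⟨c, hcC⟩
    (f := fun z => dist z y) (continuous_id.dist continuous_const).continuousOn
  set s := dist x' y
  have hs : 0 < s := dist_pos.2 fun h => hx'C.2 (h ▸ hyO)
  have hsR : s < R / 4 := (hmin hcC).trans_lt (by simpa [dist_comm] using mem_ball.1 hy)
  have hy' := mem_ball.1 hy
  have hx'c : dist x' c < R / 2 := by linarith [dist_triangle x' y c]
  have hballO : ∀ z ∈ ball y s, e.symm z ∈ O := by
    intro z hz
    by_contra h
    have hz' := mem_ball.1 hz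
    have : z ∈ C := ⟨mem_closedBall.2 (by linarith [dist_triangle z y c]), h⟩
    exact absurd (hmin this) (not_le.2 hz')
  have hT : ∀ v ∈ closedBall (0 : E) (R / 4), x' + v ∈ closedBall c R := by
    intro v hv
    rw [mem_closedBall_zero_iff] at hv
    rw [mem_closedBall]
    have : dist (x' + v) x' = ‖v‖ := by simp
    linarith [dist_triangle (x' + v) x' c]
  have hmaps : MapsBall (G := K) e univ c R := ⟨hRT, fun k _ z hz => (hRsub hz).2 k⟩
  have hx'B : x' ∈ closedBall c R := mem_closedBall.2 (by linarith)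
  have hx'fix : ∀ k : K, chartRep e k x' = x' := by
    intro k
    have hmem : x' ∈ closure (ball y s) := by
      rw [closure_ball y hs.ne']; exact mem_closedBall.2 le_rfl
    have hsub : closure (ball y s) ⊆ closedBall c R := closure_minimal
      (fun z hz => mem_closedBall.2 (by linarith [dist_triangle z y c, mem_ball.1 hz]))
      isClosed_closedBall
    refine (EqOn.of_subset_closure (s := ball y s) ?_ ((continuousOn_chartRep hmaps).comp
      (continuousOn_const.prodMk continuousOn_id) fun z hz => ⟨mem_univ k, hsub hz⟩)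
      continuousOn_id subset_closure subset_rfl) hmem
    intro z hz
    have h : k • e.symm z = e.symm z := interior_subset (hballO z hz) k
    simp only [Function.comp_apply, chartRep, id_eq]
    rw [h]
    exact e.right_inv (hRT (hsub (subset_closure hz)))
  set f : K → E → E := fun k v => chartRep e k (x' + v) - x'
  have hf : IsLocalAction f 0 (R / 4) := by
    have hc := isLocalAction_chartRep hmaps
    refine ⟨?_, fun v hv => ?_, fun k l v hv hlv => ?_⟩
    · exact ((continuousOn_chartRep hmaps).comp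
        (continuous_fst.prodMk (continuous_const.add continuous_snd)).continuousOn
        fun q hq => ⟨mem_univ _, hT q.2 hq.2⟩).sub continuousOn_const
    · simp [f, hc.one _ (hT v hv)]
    · simp only [f, add_sub_cancel]
      rw [hc.mul k l _ (hT v hv) (by simpa [f] using hT _ hlv)]
  have hl : ∀ v ∈ ball (0 : E) (R / 4), UnifLipAt f v := by
    intro v hv
    have hv' := hT v (ball_subset_closedBall hv)
    obtain ⟨S, hS, hSfix⟩ := locally_finite_image hact hpp hp (e.symm (x' + v))
    obtain ⟨m, ρ, hρ, hb⟩ := unifLipAt_of_germ hact he (hRT hv') (hRsub hv').2 hS hSfix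
    refine ⟨m, ρ, hρ, fun k w hw => ?_⟩
    have := hb k (x' + w) (by simpa using hw)
    simpa [f] using this
  set u := s⁻¹ • (x' - y)
  have hu : ‖u‖ = 1 := by
    rw [norm_smul, norm_inv, Real.norm_eq_abs, abs_of_pos hs, ← dist_eq_norm,
      inv_mul_cancel₀ hs.ne']
  have hsu : s • u = x' - y := smul_inv_smul₀ hs.ne' _
  refine not_touching hf hpp hp (by positivity) hl (fun k => by simp [f, hx'fix k]) hs hu ?_ ?_
  · intro v hv hvB k
    have hvy : x' + v ∈ ball y s := by
      rw [mem_ball, dist_eq_norm]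
      rw [mem_ball, dist_eq_norm, sub_neg_eq_add, hsu] at hv
      rwa [show x' + v - y = v + (x' - y) by abel]
    have h : k • e.symm (x' + v) = e.symm (x' + v) := interior_subset (hballO _ hvy) k
    simp [f, chartRep, h, e.right_inv (hRT (hT v hvB))]
  · intro a ha
    by_contra hnone
    push Not at hnone
    refine hx'C.2 (mem_interior_iff_mem_nhds.2 ?_)
    have : e.symm '' ball x' (min a (R / 4)) ∈ 𝓝 (e.symm x') :=
      e.symm.image_mem_nhds (by simpa using hRT hx'B) (ball_mem_nhds _ (by positivity))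
    filter_upwards [this] with z hz
    obtain ⟨w, hw, rfl⟩ := hz
    intro k
    rw [mem_ball, dist_eq_norm] at hw
    have hwB : w ∈ closedBall c R := by
      simpa using hT (w - x') (mem_closedBall_zero_iff.2 (hw.le.trans (min_le_right _ _)))
    have h := hnone (w - x') (lt_of_lt_of_le hw (min_le_left _ _)) k
    simp only [f, add_sub_cancel, sub_left_inj] at h
    exact e.injOn ((hRsub hwB).2 k) (e.map_target (hRT hwB))
      (h.trans (e.right_inv (hRT hwB)).symm)

end OneGroup

variable {G : Type*} [Group G] [TopologicalSpace G] [IsTopologicalGroup G] [T2Space G]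
  [LocallyCompactSpace G] [MulAction G M] [ContinuousSMul G M]

/-- Near the identity all compact procyclic pro-p subgroups fix a common open set. -/
theorem exists_fixed_open [Nonempty M] (hact : IsPointwiseLipschitzAction E G M) :
    ∃ U ∈ 𝓝 (1 : G), ∃ W : Set M, IsOpen W ∧ W.Nonempty ∧
      ∀ (P : Subgroup G) (p : ℕ), (P : Set G) ⊆ U → IsCompact (P : Set G) →
        (∀ a ∈ P, ∀ b ∈ P, a * b = b * a) → p.Prime → PIndices P p →
          ∀ x ∈ W, ∀ g ∈ P, g • x = x := by
  obtain ⟨x⟩ := ‹Nonempty M›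
  set e := chartAt E x
  have he : e ∈ atlas E M := chart_mem_atlas E x
  obtain ⟨z₀, hz₀, -, r, hr, hrT, U, hU, m, ρ, hρ, hb⟩ :=
    exists_portion hact he isClosed_univ (fun _ _ _ => mem_univ _) (mem_univ x)
      (mem_chart_source E x)
  refine ⟨U ∩ {g | ∀ z ∈ closedBall z₀ r, g • e.symm z ∈ e.source ∧
    dist (chartRep e g z) z < r / 16}, inter_mem hU (eventually_small hrT (by positivity)),
    e.symm '' ball z₀ (r / 2), e.isOpen_image_symm_of_subset_target isOpen_ball ?_,
    (nonempty_ball.2 (by positivity)).image _, ?_⟩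
  · exact fun z hz => hrT (ball_subset_closedBall (ball_subset_ball (by linarith) hz))
  intro P p hPU hPc hcomm hpp hp y hy g hg
  let : CommGroup P := { (inferInstance : Group P) with
    mul_comm := fun a b => Subtype.ext (hcomm a a.2 b b.2) }
  have : IsTopologicalGroup P := inferInstanceAs (IsTopologicalGroup P)
  have : CompactSpace P := isCompact_iff_compactSpace.1 hPc
  have : ContinuousSMul P M := Subgroup.continuousSMul
  have hmaps : MapsBall (G := P) e univ z₀ r :=
    ⟨hrT, fun s _ z hz => ((hPU s.2).2 z hz).1⟩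
  have hfix := fixed_of_small_displacement (isLocalAction_chartRep hmaps) hpp hp
    (fun s z hz => by rw [← dist_eq_norm]; exact ((hPU s.2).2 z hz).2.le)
    (show 8 * (r / 16) < r by linarith)
    fun z hz => ⟨m, ρ, hρ, fun s w hw =>
      hb s (hPU s.2).1 z (ball_subset_closedBall hz) (mem_univ _) w hw⟩
  obtain ⟨z, hz, rfl⟩ := hy
  have hzB : z ∈ closedBall z₀ r := ball_subset_closedBall (ball_subset_ball (by linarith) hz)
  exact e.injOn ((hPU hg).2 z hzB).1 (e.map_target (hrT hzB))
    ((hfix z hz ⟨g, hg⟩).trans (e.right_inv (hrT hzB)).symm)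

omit [LocallyCompactSpace G] [MeasurableSpace E] in
/-- A nontrivial compact totally disconnected group contains a nontrivial procyclic subgroup all
of whose open subgroups have index a power of one prime. -/
theorem exists_pIndices_subgroup (H : Subgroup G) (hc : IsCompact (H : Set G))
    (htd : IsTotallyDisconnected (H : Set G)) (hne : H ≠ ⊥) :
    ∃ h ∈ H, h ≠ 1 ∧ ∃ p : ℕ, p.Prime ∧ ∃ P : Subgroup G, P ≤ H ∧ h ∈ P ∧
      IsCompact (P : Set G) ∧ (∀ a ∈ P, ∀ b ∈ P, a * b = b * a) ∧ PIndices P p := by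
  classical
  have : CompactSpace H := isCompact_iff_compactSpace.1 hc
  have : TotallyDisconnectedSpace H := totallyDisconnectedSpace_subtype_iff.2 htd
  obtain ⟨g, hg⟩ : ∃ g : H, g ≠ 1 := by
    obtain ⟨g, hgH, hg⟩ := (Subgroup.bot_or_exists_ne_one H).resolve_left hne
    exact ⟨⟨g, hgH⟩, fun h => hg (congrArg Subtype.val h)⟩
  obtain ⟨N, hN⟩ := ProfiniteGrp.exist_openNormalSubgroup_sub_open_nhds_of_one
    (isOpen_compl_singleton (x := g)) (Ne.symm hg)
  have hgN : g ∉ N.toSubgroup := fun h => hN h rfl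
  have hfin : ∀ N' : Subgroup H, IsOpen (N' : Set H) → Finite (H ⧸ N') := fun N' hN' => by
    have := QuotientGroup.discreteTopology hN'
    exact finite_of_compact_of_discrete
  have := hfin N.toSubgroup N.isOpen'
  set d := orderOf (g : H ⧸ N.toSubgroup)
  have hd1 : d ≠ 1 := fun h => hgN ((QuotientGroup.eq_one_iff g).1 (orderOf_eq_one_iff.1 h))
  set p := d.minFac
  have hpp : p.Prime := Nat.minFac_prime hd1
  have hco : ∀ k : ℕ, (p ^ k).Coprime (Nat.factorial k / p ^ (Nat.factorial k).factorization p) :=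
    fun k => (Nat.coprime_ordCompl hpp (Nat.factorial_ne_zero k)).pow_left k
  let ex : ℕ → ℕ := fun k => Nat.chineseRemainder (hco k) 1 0
  have hex : ∀ k, ex k ≡ 1 [MOD p ^ k] ∧
      ex k ≡ 0 [MOD Nat.factorial k / p ^ (Nat.factorial k).factorization p] :=
    fun k => (Nat.chineseRemainder (hco k) 1 0).2
  obtain ⟨h, -, hh⟩ := isCompact_univ.exists_mapClusterPt (f := atTop) (u := fun k : ℕ => g ^ ex k)
    (by simp)
  -- behaviour of `h` modulo open normal subgroups
  have hmod : ∀ N' : Subgroup H, N'.Normal → IsOpen (N' : Set H) → ∀ k₀, ∃ k ≥ k₀,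
      (g ^ ex k)⁻¹ * h ∈ N' := by
    intro N' _ hN' k₀
    have hnh : {y : H | y⁻¹ * h ∈ N'} ∈ 𝓝 h :=
      (hN'.preimage (by fun_prop : Continuous fun y : H => y⁻¹ * h)).mem_nhds
        (by simp [N'.one_mem])
    obtain ⟨k, hk, hk'⟩ := (hh.frequently hnh).forall_exists_of_atTop k₀
    exact ⟨k, hk, hk'⟩
  have hpow : ∀ N' : Subgroup H, N'.Normal → IsOpen (N' : Set H) → ∃ a, h ^ p ^ a ∈ N' := by
    intro N' hn hN'
    have := hfin N' hN'
    set D := orderOf (g : H ⧸ N')
    have hD : 0 < D := orderOf_pos _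
    refine ⟨D.factorization p, ?_⟩
    obtain ⟨k, hk, hkm⟩ := hmod N' hn hN' D
    rw [← QuotientGroup.eq_one_iff]
    have : (h : H ⧸ N') = (g : H ⧸ N') ^ ex k := by
      rw [← QuotientGroup.mk_pow]; exact (QuotientGroup.eq.2 hkm).symm
    rw [QuotientGroup.mk_pow, this, ← pow_mul, ← orderOf_dvd_iff_pow_eq_one]
    change D ∣ _
    have h2 : D / p ^ D.factorization p ∣ ex k := by
      refine dvd_trans ?_ (Nat.modEq_zero_iff_dvd.1 (hex k).2)
      exact Nat.ordCompl_dvd_ordCompl_of_dvd (Nat.dvd_factorial hD hk) p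
    calc D = D / p ^ D.factorization p * p ^ D.factorization p :=
          (Nat.div_mul_cancel (Nat.ordProj_dvd D p)).symm
      _ ∣ ex k * p ^ D.factorization p := mul_dvd_mul_right h2 _
  have hh1 : h ≠ 1 := by
    intro hh1
    obtain ⟨k, hk, hkm⟩ := hmod N.toSubgroup N.isNormal' N.isOpen' 1
    rw [hh1, mul_one, inv_mem_iff, ← QuotientGroup.eq_one_iff, QuotientGroup.mk_pow,
      ← orderOf_dvd_iff_pow_eq_one] at hkm
    have h1 : p ∣ ex k := (Nat.minFac_dvd d).trans hkm
    have h2 : ex k ≡ 1 [MOD p] := (hex k).1.of_dvd (dvd_pow_self p (by omega))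
    exact hpp.not_dvd_one (Nat.modEq_zero_iff_dvd.1
      (h2.symm.trans (Nat.modEq_zero_iff_dvd.2 h1)))
  set P : Subgroup G := (Subgroup.zpowers (h : G)).topologicalClosure
  have hPH : P ≤ H := Subgroup.topologicalClosure_minimal _ (by simp) hc.isClosed
  refine ⟨h, h.2, fun e => hh1 (Subtype.ext e), p, hpp, P, hPH,
    Subgroup.le_topologicalClosure _ (Subgroup.mem_zpowers _),
    hc.of_isClosed_subset (Subgroup.isClosed_topologicalClosure _) hPH, ?_, ?_⟩
  · intro a ha b hb
    let : CommGroup P := Subgroup.commGroupTopologicalClosure _ fun x y => by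
      obtain ⟨i, hi⟩ := Subgroup.mem_zpowers_iff.1 x.2
      obtain ⟨j, hj⟩ := Subgroup.mem_zpowers_iff.1 y.2
      refine Subtype.ext ?_
      simp only [Subgroup.coe_mul, ← hi, ← hj, ← zpow_add, add_comm]
    exact congrArg Subtype.val (mul_comm (⟨a, ha⟩ : P) ⟨b, hb⟩)
  intro S hS
  let : CommGroup P := Subgroup.commGroupTopologicalClosure _ fun x y => by
    obtain ⟨i, hi⟩ := Subgroup.mem_zpowers_iff.1 x.2
    obtain ⟨j, hj⟩ := Subgroup.mem_zpowers_iff.1 y.2
    refine Subtype.ext ?_
    simp only [Subgroup.coe_mul, ← hi, ← hj, ← zpow_add, add_comm]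
  -- an open normal subgroup of `H` inside `S`
  obtain ⟨V, hV, hVS⟩ := isOpen_induced_iff.1 hS
  have h1V : (1 : G) ∈ V := by
    have : (1 : P) ∈ Subtype.val ⁻¹' V := hVS ▸ S.one_mem
    exact this
  obtain ⟨N', hN'⟩ := ProfiniteGrp.exist_openNormalSubgroup_sub_open_nhds_of_one
    (hV.preimage (continuous_subtype_val (p := (· ∈ H)))) h1V
  obtain ⟨a, ha⟩ := hpow N'.toSubgroup N'.isNormal' N'.isOpen'
  set hP : P := ⟨h, Subgroup.le_topologicalClosure _ (Subgroup.mem_zpowers _)⟩
  have haS : hP ^ p ^ a ∈ S := by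
    have h1 : hP ^ p ^ a ∈ Subtype.val ⁻¹' V := by
      have := hN' ha
      simpa [hP] using this
    rwa [hVS] at h1
  -- `hP` generates the quotient
  have hgen : ∀ q : P ⧸ S, q ∈ Subgroup.zpowers (hP : P ⧸ S) := by
    intro q
    induction q using QuotientGroup.induction_on with
    | _ q =>
      have hnb : {y : P | y⁻¹ * q ∈ S} ∈ 𝓝 q :=
        (hS.preimage (by fun_prop : Continuous fun y : P => y⁻¹ * q)).mem_nhds
          (by simp [S.one_mem])
      obtain ⟨V', hV', hV'sub⟩ := (mem_nhds_subtype _ q _).1 hnb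
      obtain ⟨_, hyV, i, rfl⟩ := mem_closure_iff_nhds.1 q.2 V' hV'
      refine ⟨i, ?_⟩
      change (hP : P ⧸ S) ^ i = _
      rw [← QuotientGroup.mk_zpow, QuotientGroup.eq]
      exact hV'sub (show ((hP ^ i : P) : G) ∈ V' by simpa [hP] using hyV)
  have hord : orderOf (hP : P ⧸ S) ∣ p ^ a := by
    rw [orderOf_dvd_iff_pow_eq_one, ← QuotientGroup.mk_pow, QuotientGroup.eq_one_iff]
    exact haS
  have hidx : S.index = orderOf (hP : P ⧸ S) := by
    rw [orderOf_eq_card_of_forall_mem_zpowers hgen]
    rfl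
  obtain ⟨b, -, hb⟩ := (Nat.dvd_prime_pow hpp).1 hord
  exact ⟨b, hidx.trans hb⟩

/-- Small compact totally disconnected subgroups act trivially. -/
theorem small_subgroups_trivial [PreconnectedSpace M] [Nonempty M] [FaithfulSMul G M]
    (hact : IsPointwiseLipschitzAction E G M) :
    ∃ U ∈ 𝓝 (1 : G), ∀ H : Subgroup G, (H : Set G) ⊆ U → IsCompact (H : Set G) →
      IsTotallyDisconnected (H : Set G) → H = ⊥ := by
  obtain ⟨U, hU, W, hWo, hWne, hW⟩ := exists_fixed_open hact
  refine ⟨U, hU, fun H hHU hc htd => ?_⟩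
  by_contra hne
  obtain ⟨h, -, hh1, p, hpp, P, hPH, hhP, hPc, hcomm, hp⟩ :=
    exists_pIndices_subgroup H hc htd hne
  let : CommGroup P := { (inferInstance : Group P) with
    mul_comm := fun a b => Subtype.ext (hcomm a a.2 b b.2) }
  have : CompactSpace P := isCompact_iff_compactSpace.1 hPc
  have : TotallyDisconnectedSpace P := totallyDisconnectedSpace_subtype_iff.2
    fun t ht ht' => htd t (ht.trans hPH) ht'
  have hfix := fixed_everywhere (hact.subgroup P) hpp hp hWo hWne
    fun x hx k => hW P p (fun a ha => hHU (hPH ha)) hPc hcomm hpp hp x hx k k.2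
  exact hh1 (eq_of_smul_eq_smul (α := M) fun x => by
    rw [one_smul]; exact hfix x ⟨h, hhP⟩)

omit [MulAction G M] [ContinuousSMul G M] in
/-- van Dantzig: a totally disconnected locally compact group has small compact open subgroups. -/
theorem exists_compact_open_subgroup [TotallyDisconnectedSpace G] {U : Set G}
    (hU : U ∈ 𝓝 (1 : G)) :
    ∃ H : Subgroup G, IsOpen (H : Set G) ∧ IsCompact (H : Set G) ∧ (H : Set G) ⊆ U := by
  obtain ⟨C, hC1, hCU, hCc⟩ := local_compact_nhds hU
  obtain ⟨W, hW, h1W, hWC⟩ := (loc_compact_Haus_tot_disc_of_zero_dim (H := G)).exists_subset_of_mem_open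
    (mem_interior_iff_mem_nhds.2 hC1) isOpen_interior
  have hWc : IsCompact W := hCc.of_isClosed_subset hW.isClosed (hWC.trans interior_subset)
  obtain ⟨V, hV, hWV⟩ := compact_open_separated_mul_right hWc hW.isOpen subset_rfl
  obtain ⟨T, hTV, hTo, hT1⟩ := _root_.mem_nhds_iff.1 (inter_mem hV (inv_mem_nhds_one G hV))
  set H := Subgroup.closure T
  have hHo : IsOpen (H : Set G) :=
    Subgroup.isOpen_of_mem_nhds H (mem_of_superset (hTo.mem_nhds hT1) Subgroup.subset_closure)
  have hstep : ∀ g ∈ H, ∀ w ∈ W, w * g ∈ W := by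
    intro g hg
    induction hg using Subgroup.closure_induction'' with
    | mem t ht => exact fun w hw => hWV (mul_mem_mul hw (hTV ht).1)
    | inv_mem t ht => exact fun w hw => hWV (mul_mem_mul hw (hTV ht).2)
    | one => simp
    | mul a b _ _ ha hb => exact fun w hw => by rw [← mul_assoc]; exact hb _ (ha w hw)
  have hHW : (H : Set G) ⊆ W := fun g hg => one_mul g ▸ hstep g hg 1 h1W
  exact ⟨H, hHo, hWc.of_isClosed_subset (Subgroup.isClosed_of_isOpen H hHo) hHW,
    hHW.trans ((hWC.trans interior_subset).trans hCU)⟩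

theorem discrete_of_totallyDisconnected [PreconnectedSpace M] [Nonempty M] [FaithfulSMul G M]
    (hact : IsPointwiseLipschitzAction E G M) [TotallyDisconnectedSpace G] :
    DiscreteTopology G := by
  obtain ⟨U, hU, hsmall⟩ := small_subgroups_trivial hact
  obtain ⟨H, hHo, hHc, hHU⟩ := exists_compact_open_subgroup hU
  have hbot := hsmall H hHU hHc (isTotallyDisconnected_of_totallyDisconnectedSpace _)
  rw [hbot, Subgroup.coe_bot] at hHo
  exact discreteTopology_of_isOpen_singleton_one hHo

theorem no_padic_subgroup [PreconnectedSpace M] [Nonempty M] [FaithfulSMul G M]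
    (hact : IsPointwiseLipschitzAction E G M) (p : ℕ) [Fact p.Prime]
    (ι : Multiplicative ℤ_[p] →* G) (hι : Continuous ι) : ¬ Injective ι := by
  intro hinj
  obtain ⟨U, hU, hsmall⟩ := small_subgroups_trivial hact
  have hnb : ι ⁻¹' U ∈ 𝓝 (1 : Multiplicative ℤ_[p]) := hι.continuousAt (by rwa [map_one])
  obtain ⟨H, hHo, hHc, hHU⟩ := exists_compact_open_subgroup hnb
  have hemb := hι.isClosedEmbedding hinj
  have hbot := hsmall (H.map ι) (by rintro _ ⟨a, ha, rfl⟩; exact hHU ha) (hHc.image hι)
    (hemb.isEmbedding.isTotallyDisconnected_image.2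
      (isTotallyDisconnected_of_totallyDisconnectedSpace _))
  rw [Subgroup.map_eq_bot_iff_of_injective _ hinj] at hbot
  rw [hbot, Subgroup.coe_bot] at hHo
  have : DiscreteTopology (Multiplicative ℤ_[p]) := discreteTopology_of_isOpen_singleton_one hHo
  have : Finite (Multiplicative ℤ_[p]) := finite_of_compact_of_discrete
  have hZ : Finite ℤ_[p] := Finite.of_equiv _ (Multiplicative.toAdd (α := ℤ_[p]))
  exact _root_.not_finite ℤ_[p]

end

end Vale.Agent.P228
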