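import Mathlib

/-!
Two C^1 self maps of a finite dimensional space that agree outside a ball have the same
integral of `φ ∘ F * det DF` over that ball.

Trick: for polynomial `P` the integral of `P (s x + F x) * det (s + DF x)` is polynomial in `s`,
and for large `s` both maps are diffeomorphisms with the same image of the ball.
-/

namespace Vale.Agent.P228

open MeasureTheory Metric Set Function Filter
open scoped Topology NNReal Polynomial

noncomputable section

variable {E : Type*} [NormedAddCommGroup E] [NormedSpace ℝ E] [FiniteDimensional ℝ E]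
  [MeasurableSpace E] [BorelSpace E] (μ : Measure E) [μ.IsAddHaarMeasure]

/-- `s • id + F`. -/
def pencil (F : E → E) (s : ℝ) (x : E) : E := s • x + F x

lemma pencil_bijective {F : E → E} {K : ℝ≥0} (hF : LipschitzWith K F) {s : ℝ} (hs : (K : ℝ) < s) :
    Bijective (pencil F s) := by
  have hs0 : (0 : ℝ) < s := lt_of_le_of_lt K.coe_nonneg hs
  constructor
  · intro a b h
    have h1 : s • (a - b) = F b - F a := by
      simp only [pencil] at h
      rw [smul_sub, sub_eq_sub_iff_add_eq_add, h, add_comm]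
    have h2 := hF.norm_sub_le b a
    rw [← h1, norm_smul, Real.norm_eq_abs, abs_of_pos hs0, norm_sub_rev b a] at h2
    by_contra hne
    have : 0 < ‖a - b‖ := norm_pos_iff.2 (sub_ne_zero.2 hne)
    nlinarith
  · intro y
    let T : E → E := fun x => s⁻¹ • (y - F x)
    have hT : ContractingWith (Real.toNNReal ((K : ℝ) / s)) T := by
      refine ⟨?_, ?_⟩
      · rw [← Real.toNNReal_one, Real.toNNReal_lt_toNNReal_iff one_pos, div_lt_one hs0]
        exact hs
      · refine LipschitzWith.of_dist_le_mul fun a b => ?_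
        rw [dist_eq_norm, dist_eq_norm, ← smul_sub, sub_sub_sub_cancel_left, norm_smul,
          Real.norm_eq_abs, abs_inv, abs_of_pos hs0, Real.coe_toNNReal _ (by positivity)]
        have := hF.norm_sub_le b a
        rw [norm_sub_rev b a] at this
        calc s⁻¹ * ‖F b - F a‖ ≤ s⁻¹ * ((K : ℝ) * ‖a - b‖) := by gcongr
          _ = (K : ℝ) / s * ‖a - b‖ := by ring
    refine ⟨hT.fixedPoint T, ?_⟩
    have h := hT.fixedPoint_isFixedPt
    simp only [IsFixedPt, T] at h
    have h' := congrArg (fun v => s • v) h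
    simp only [smul_smul, mul_inv_cancel₀ hs0.ne', one_smul] at h'
    set z := hT.fixedPoint T
    change s • z + F z = y
    rw [← h']
    abel

lemma det_smul_id_add_pos {A : E →L[ℝ] E} {s : ℝ} (hA : ‖A‖ < s) :
    0 < (s • ContinuousLinearMap.id ℝ E + A).det := by
  have hs0 : 0 < s := lt_of_le_of_lt (norm_nonneg _) hA
  let g : ℝ → ℝ := fun τ => (ContinuousLinearMap.id ℝ E + τ • A).det
  have hne : ∀ τ ∈ Icc (0 : ℝ) s⁻¹, g τ ≠ 0 := by
    intro τ hτ h
    obtain ⟨v, hv, hv0⟩ : ∃ v, v ≠ 0 ∧
        (ContinuousLinearMap.id ℝ E + τ • A) v = 0 := by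
      have := LinearMap.bot_lt_ker_of_det_eq_zero h
      obtain ⟨v, hv, hv0⟩ := Submodule.exists_mem_ne_zero_of_ne_bot this.ne'
      exact ⟨v, hv0, by simpa using hv⟩
    have h1 : v = -(τ • A v) := by
      simpa [add_eq_zero_iff_eq_neg] using hv0
    have hvp : 0 < ‖v‖ := norm_pos_iff.2 hv
    have h2 : ‖v‖ ≤ τ * (‖A‖ * ‖v‖) := by
      conv_lhs => rw [h1]
      rw [norm_neg, norm_smul, Real.norm_eq_abs, abs_of_nonneg hτ.1]
      exact mul_le_mul_of_nonneg_left (A.le_opNorm v) hτ.1
    have h3 : τ * ‖A‖ < 1 := by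
      calc τ * ‖A‖ ≤ s⁻¹ * ‖A‖ := mul_le_mul_of_nonneg_right hτ.2 (norm_nonneg _)
        _ < s⁻¹ * s := mul_lt_mul_of_pos_left hA (inv_pos.2 hs0)
        _ = 1 := inv_mul_cancel₀ hs0.ne'
    nlinarith
  have hg : Continuous g := by
    exact ContinuousLinearMap.continuous_det.comp (by fun_prop)
  have hg0 : g 0 = 1 := by
    simp [g, ContinuousLinearMap.det]
  have hpos : 0 < g s⁻¹ := by
    by_contra hle
    push Not at hle
    obtain ⟨τ, hτ, hτ0⟩ := intermediate_value_Icc' (inv_nonneg.2 hs0.le) hg.continuousOn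
      (show (0 : ℝ) ∈ Icc (g s⁻¹) (g 0) from ⟨hle, by rw [hg0]; norm_num⟩)
    exact hne τ hτ hτ0
  have : s • ContinuousLinearMap.id ℝ E + A = s • (ContinuousLinearMap.id ℝ E + s⁻¹ • A) := by
    rw [smul_add, smul_smul, mul_inv_cancel₀ hs0.ne', one_smul]
  rw [this]
  simp only [ContinuousLinearMap.det, ContinuousLinearMap.toLinearMap_smul, LinearMap.det_smul]
  exact mul_pos (pow_pos hs0 _) hpos

lemma setIntegral_pencil {F : E → E} (hF : ContDiff ℝ 1 F) {K : ℝ≥0} (hL : LipschitzWith K F)
    {s : ℝ} (hs : (K : ℝ) < s) {B : Set E} (hB : MeasurableSet B) (φ : E → ℝ) :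
    ∫ x in B, φ (pencil F s x) * (s • ContinuousLinearMap.id ℝ E + fderiv ℝ F x).det ∂μ
      = ∫ y in pencil F s '' B, φ y ∂μ := by
  rw [integral_image_eq_integral_abs_det_fderiv_smul μ hB
    (f' := fun x => s • ContinuousLinearMap.id ℝ E + fderiv ℝ F x) ?_
    (pencil_bijective hL hs).injective.injOn]
  · refine setIntegral_congr_fun hB fun x _ => ?_
    have hp : 0 < (s • ContinuousLinearMap.id ℝ E + fderiv ℝ F x).det :=
      det_smul_id_add_pos (lt_of_le_of_lt (norm_fderiv_le_of_lipschitz ℝ hL) hs)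
    simp only [abs_of_pos hp, smul_eq_mul]
    ring
  · intro x _
    exact (((hasFDerivAt_id x).const_smul s).add
      (hF.differentiable one_ne_zero x).hasFDerivAt).hasFDerivWithinAt

section Poly

variable {ι : Type*} [Fintype ι] [DecidableEq ι] (b : Module.Basis ι ℝ E)

/-- The coordinate functions as continuous maps. -/
def coordMap (i : ι) : C(E, ℝ) :=
  ⟨fun x => b.coord i x, LinearMap.continuous_of_finiteDimensional _⟩

lemma coord_separates :
    (MvPolynomial.aeval (R := ℝ) (coordMap b)).range.SeparatesPoints := by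
  intro x y hxy
  obtain ⟨i, hi⟩ : ∃ i, b.coord i x ≠ b.coord i y := by
    by_contra h
    push Not at h
    exact hxy (b.ext_elem fun i => by simpa using h i)
  exact ⟨coordMap b i, ⟨coordMap b i, ⟨MvPolynomial.X i, by simp⟩, rfl⟩, hi⟩

lemma aeval_coordMap_apply (P : MvPolynomial ι ℝ) (x : E) :
    (MvPolynomial.aeval (coordMap b) P : C(E, ℝ)) x
      = MvPolynomial.eval (fun i => b.coord i x) P := by
  induction P using MvPolynomial.induction_on with
  | C a => simp
  | add p q hp hq => simp [hp, hq]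
  | mul_X p i hp => simp [hp, coordMap]

/-- Evaluation of a polynomial with continuous coefficients. -/
def evalAt (s : ℝ) (x : E) : C(E, ℝ)[X] →+* ℝ :=
  Polynomial.eval₂RingHom ((Pi.evalRingHom (fun _ : E => ℝ) x).comp
    ContinuousMap.coeFnRingHom) s

lemma evalAt_X (s : ℝ) (x : E) : evalAt s x Polynomial.X = s :=
  Polynomial.eval₂_X _ _

lemma evalAt_C (s : ℝ) (x : E) (g : C(E, ℝ)) : evalAt s x (Polynomial.C g) = g x :=
  Polynomial.eval₂_C _ _

lemma evalAt_eq_sum (s : ℝ) (x : E) (Q : C(E, ℝ)[X]) :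
    evalAt s x Q = ∑ k ∈ Q.support, (Q.coeff k) x * s ^ k := by
  conv_lhs => rw [Q.as_sum_support_C_mul_X_pow]
  rw [map_sum]
  exact Finset.sum_congr rfl fun k _ => by rw [map_mul, map_pow, evalAt_X, evalAt_C]

lemma exists_polynomial_integral {F : E → E} (hF : ContDiff ℝ 1 F) {B : Set E}
    (hB : IsCompact B) (P : MvPolynomial ι ℝ) :
    ∃ q : ℝ[X], ∀ s : ℝ, q.eval s = ∫ x in B,
      MvPolynomial.eval (fun i => b.coord i (pencil F s x)) P *
        (s • ContinuousLinearMap.id ℝ E + fderiv ℝ F x).det ∂μ := by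
  classical
  let cF : ι → C(E, ℝ) := fun i => (coordMap b i).comp ⟨F, hF.continuous⟩
  let dF : ι → ι → C(E, ℝ) := fun i j =>
    ⟨fun x => b.coord i (fderiv ℝ F x (b j)),
      (LinearMap.continuous_of_finiteDimensional (b.coord i)).comp
        ((hF.continuous_fderiv one_ne_zero).clm_apply continuous_const)⟩
  let v : ι → C(E, ℝ)[X] := fun i =>
    Polynomial.X * Polynomial.C (coordMap b i) + Polynomial.C (cF i)
  let m : Matrix ι ι C(E, ℝ)[X] := fun i j =>
    (if i = j then Polynomial.X else 0) + Polynomial.C (dF i j)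
  let Q : C(E, ℝ)[X] := MvPolynomial.aeval v P * m.det
  refine ⟨∑ k ∈ Q.support, Polynomial.C (∫ x in B, (Q.coeff k) x ∂μ) * Polynomial.X ^ k, ?_⟩
  intro s
  have hev : ∀ x, MvPolynomial.eval (fun i => b.coord i (pencil F s x)) P *
        (s • ContinuousLinearMap.id ℝ E + fderiv ℝ F x).det
        = ∑ k ∈ Q.support, (Q.coeff k) x * s ^ k := by
    intro x
    have hv : ∀ i, evalAt s x (v i) = b.coord i (pencil F s x) := by
      intro i
      rw [map_add, map_mul, evalAt_X, evalAt_C, evalAt_C, pencil, map_add, map_smul]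
      rfl
    have h1 : ∀ P, evalAt s x (MvPolynomial.aeval v P)
        = MvPolynomial.eval (fun i => b.coord i (pencil F s x)) P := by
      intro P
      induction P using MvPolynomial.induction_on with
      | C a =>
        rw [MvPolynomial.aeval_C, MvPolynomial.eval_C, Polynomial.algebraMap_apply, evalAt_C]
        simp
      | add p q hp hq => rw [map_add, map_add, map_add, hp, hq]
      | mul_X p i hp =>
        rw [map_mul, map_mul, map_mul, MvPolynomial.aeval_X, MvPolynomial.eval_X, hp, hv]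
    have hm : ∀ i j, evalAt s x (m i j) = LinearMap.toMatrix b b
        (s • ContinuousLinearMap.id ℝ E + fderiv ℝ F x : E →L[ℝ] E).toLinearMap i j := by
      intro i j
      rw [LinearMap.toMatrix_apply, ContinuousLinearMap.coe_coe, map_add, evalAt_C]
      change _ = b.repr (s • b j + fderiv ℝ F x (b j)) i
      rw [map_add, map_smul, Finsupp.add_apply, Finsupp.smul_apply, b.repr_self,
        Finsupp.single_apply]
      rcases eq_or_ne i j with rfl | hij
      · rw [if_pos rfl, if_pos rfl, evalAt_X, smul_eq_mul, mul_one]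
        rfl
      · rw [if_neg hij, if_neg hij.symm, map_zero, smul_zero]
        rfl
    have h2 : evalAt s x m.det = (s • ContinuousLinearMap.id ℝ E + fderiv ℝ F x).det := by
      rw [RingHom.map_det, ContinuousLinearMap.det, ← LinearMap.det_toMatrix b]
      congr 1
      ext i j
      exact hm i j
    rw [← h1, ← h2, ← map_mul, evalAt_eq_sum]
  simp_rw [hev]
  rw [integral_finsetSum]
  · simp [Polynomial.eval_finsetSum, integral_mul_const]
  · intro k _
    exact ((Q.coeff k).continuous.mul continuous_const).continuousOn.integrableOn_compact hB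

end Poly

lemma integral_comp_mul_det_eq_aux {F₁ F₂ : E → E} (h₁ : ContDiff ℝ 1 F₁) (h₂ : ContDiff ℝ 1 F₂)
    {K : ℝ≥0} (hL₁ : LipschitzWith K F₁) (hL₂ : LipschitzWith K F₂) {B : Set E}
    (hB : IsCompact B) (heq : ∀ x, x ∉ B → F₁ x = F₂ x)
    {φ : E → ℝ} (hφ : Continuous φ) :
    ∫ x in B, φ (F₁ x) * (fderiv ℝ F₁ x).det ∂μ
      = ∫ x in B, φ (F₂ x) * (fderiv ℝ F₂ x).det ∂μ := by
  classical
  let b := Module.finBasis ℝ E
  have hpoly : ∀ P, ∫ x in B, MvPolynomial.eval (fun i => b.coord i (F₁ x)) P *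
      (fderiv ℝ F₁ x).det ∂μ = ∫ x in B, MvPolynomial.eval (fun i => b.coord i (F₂ x)) P *
      (fderiv ℝ F₂ x).det ∂μ := by
    intro P
    obtain ⟨q₁, hq₁⟩ := exists_polynomial_integral μ b h₁ hB P
    obtain ⟨q₂, hq₂⟩ := exists_polynomial_integral μ b h₂ hB P
    have : q₁ = q₂ := by
      refine Polynomial.eq_of_infinite_eval_eq _ _ ((Ioi_infinite (K : ℝ)).mono fun s hs => ?_)
      change q₁.eval s = q₂.eval s
      rw [hq₁, hq₂, setIntegral_pencil μ h₁ hL₁ hs hB.measurableSet
          (fun y => MvPolynomial.eval (fun i => b.coord i y) P),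
        setIntegral_pencil μ h₂ hL₂ hs hB.measurableSet
          (fun y => MvPolynomial.eval (fun i => b.coord i y) P)]
      have hc : pencil F₁ s '' Bᶜ = pencil F₂ s '' Bᶜ :=
        image_congr fun x hx => by simp only [pencil, heq x hx]
      rw [image_compl_eq (pencil_bijective hL₁ hs),
        image_compl_eq (pencil_bijective hL₂ hs), compl_inj_iff] at hc
      rw [hc]
    have h0 := congrArg (fun q : ℝ[X] => q.eval 0) this
    simp only [hq₁, hq₂] at h0
    simpa [pencil] using h0
  by_contra hne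
  have hdet : ∀ {F : E → E}, ContDiff ℝ 1 F → Continuous fun x => (fderiv ℝ F x).det :=
    fun hF => ContinuousLinearMap.continuous_det.comp (hF.continuous_fderiv one_ne_zero)
  set D : ℝ := (∫ x in B, |(fderiv ℝ F₁ x).det| ∂μ) + ∫ x in B, |(fderiv ℝ F₂ x).det| ∂μ with hD
  have hD0 : 0 ≤ D := add_nonneg (integral_nonneg fun _ => abs_nonneg _)
    (integral_nonneg fun _ => abs_nonneg _)
  set gap := |(∫ x in B, φ (F₁ x) * (fderiv ℝ F₁ x).det ∂μ)
      - ∫ x in B, φ (F₂ x) * (fderiv ℝ F₂ x).det ∂μ| with hgap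
  have hgap0 : 0 < gap := abs_pos.2 (sub_ne_zero.2 hne)
  obtain ⟨g, hgA, hg⟩ :=
    ContinuousMap.exists_mem_subalgebra_near_continuous_of_isCompact_of_separatesPoints
      (coord_separates b) ⟨φ, hφ⟩ ((hB.image h₁.continuous).union (hB.image h₂.continuous))
      (show 0 < gap / (D + 1) by positivity)
  obtain ⟨P, hP⟩ := hgA
  have hg' : ∀ y ∈ F₁ '' B ∪ F₂ '' B,
      |φ y - MvPolynomial.eval (fun i => b.coord i y) P| ≤ gap / (D + 1) := by
    intro y hy
    have := hg y hy
    rw [← hP] at this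
    simp only [aeval_coordMap_apply, ContinuousMap.coe_mk, Real.norm_eq_abs,
      AlgHom.toRingHom_eq_coe, RingHom.coe_coe] at this
    first
      | exact this.le
      | (rw [abs_sub_comm]; exact this.le)
  have key : ∀ {F : E → E}, ContDiff ℝ 1 F → (∀ x ∈ B, F x ∈ F₁ '' B ∪ F₂ '' B) →
      |(∫ x in B, φ (F x) * (fderiv ℝ F x).det ∂μ) - ∫ x in B,
        MvPolynomial.eval (fun i => b.coord i (F x)) P * (fderiv ℝ F x).det ∂μ|
      ≤ gap / (D + 1) * ∫ x in B, |(fderiv ℝ F x).det| ∂μ := by
    intro F hF hmem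
    have hPc : Continuous fun x => MvPolynomial.eval (fun i => b.coord i (F x)) P :=
      ((MvPolynomial.aeval (coordMap b) P : C(E, ℝ)).continuous.comp hF.continuous).congr
        fun x => aeval_coordMap_apply b P (F x)
    have hi₁ : IntegrableOn (fun x => φ (F x) * (fderiv ℝ F x).det) B μ :=
      ((hφ.comp' hF.continuous).mul (hdet hF)).continuousOn.integrableOn_compact hB
    have hi₂ : IntegrableOn (fun x => MvPolynomial.eval (fun i => b.coord i (F x)) P *
        (fderiv ℝ F x).det) B μ :=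
      (hPc.mul (hdet hF)).continuousOn.integrableOn_compact hB
    rw [← integral_sub hi₁ hi₂, ← integral_const_mul, ← Real.norm_eq_abs]
    refine norm_integral_le_of_norm_le
      ((continuous_const.mul (hdet hF).abs).continuousOn.integrableOn_compact hB) ?_
    refine (ae_restrict_iff' hB.measurableSet).2 (Eventually.of_forall fun x hx => ?_)
    rw [Real.norm_eq_abs, ← sub_mul, abs_mul]
    exact mul_le_mul_of_nonneg_right (hg' _ (hmem x hx)) (abs_nonneg _)
  have k₁ := key h₁ fun x hx => Or.inl (mem_image_of_mem _ hx)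
  have k₂ := key h₂ fun x hx => Or.inr (mem_image_of_mem _ hx)
  have : gap ≤ gap / (D + 1) * D := by
    rw [hgap, hD, mul_add]
    refine le_trans ?_ (add_le_add k₁ k₂)
    rw [← hpoly P]
    exact (abs_sub_le _ (∫ x in B, MvPolynomial.eval (fun i => b.coord i (F₁ x)) P *
      (fderiv ℝ F₁ x).det ∂μ) _).trans (add_le_add le_rfl (le_of_eq (abs_sub_comm _ _)))
  rw [div_mul_eq_mul_div, le_div_iff₀ (by positivity)] at this
  nlinarith

/-- Degree integrals only depend on the values outside the ball. -/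
theorem integral_comp_mul_det_eq {c : E} {R : ℝ} {F₁ F₂ : E → E} (h₁ : ContDiff ℝ 1 F₁)
    (h₂ : ContDiff ℝ 1 F₂) (heq : ∀ x, x ∉ closedBall c R → F₁ x = F₂ x)
    {φ : E → ℝ} (hφ : Continuous φ) :
    ∫ x in closedBall c R, φ (F₁ x) * (fderiv ℝ F₁ x).det ∂μ
      = ∫ x in closedBall c R, φ (F₂ x) * (fderiv ℝ F₂ x).det ∂μ := by
  have : HasContDiffBump E := inferInstance
  let χ : ContDiffBump c := ⟨max R 0 + 1, max R 0 + 2, by positivity, by linarith⟩
  have hc : ∀ {F : E → E}, ContDiff ℝ 1 F → ContDiff ℝ 1 fun x => χ x • F x :=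
    fun hF => χ.contDiff.smul hF
  have hs : ∀ {F : E → E}, HasCompactSupport fun x => χ x • F x :=
    fun {F} => χ.hasCompactSupport.smul_right
  obtain ⟨K₁, hK₁⟩ := (hc h₁).lipschitzWith_of_hasCompactSupport hs one_ne_zero
  obtain ⟨K₂, hK₂⟩ := (hc h₂).lipschitzWith_of_hasCompactSupport hs one_ne_zero
  have main := integral_comp_mul_det_eq_aux μ (hc h₁) (hc h₂) (hK₁.weaken (le_max_left K₁ K₂))
    (hK₂.weaken (le_max_right K₁ K₂)) (isCompact_closedBall c R)
    (fun x hx => by simp only [heq x hx]) hφ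
  have hloc : ∀ {F : E → E}, ∀ x ∈ closedBall c R,
      φ (χ x • F x) * (fderiv ℝ (fun z => χ z • F z) x).det = φ (F x) * (fderiv ℝ F x).det := by
    intro F x hx
    have hev : (fun z => χ z • F z) =ᶠ[𝓝 x] F := by
      have : ball c (max R 0 + 1) ∈ 𝓝 x := isOpen_ball.mem_nhds
        (mem_ball.2 (lt_of_le_of_lt ((mem_closedBall.1 hx).trans (le_max_left R 0)) (by linarith)))
      filter_upwards [this] with z hz
      rw [χ.one_of_mem_closedBall (ball_subset_closedBall hz), one_smul]
    rw [hev.fderiv_eq]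
    simp only [hev.eq_of_nhds]
  rwa [setIntegral_congr_fun measurableSet_closedBall hloc,
    setIntegral_congr_fun measurableSet_closedBall hloc] at main

end

end Vale.Agent.P228
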