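import Vale.Agent.P228.Degree

/-!
Almost every value of a pointwise Lipschitz map has only regular preimages (Stepanov + Sard).
-/

namespace Vale.Agent.P228

open MeasureTheory Metric Set Function Filter Module
open scoped Topology Pointwise NNReal ENNReal

noncomputable section

variable {E : Type*} [NormedAddCommGroup E] [NormedSpace ℝ E] [FiniteDimensional ℝ E]
  [MeasurableSpace E] [BorelSpace E]

lemma image_null_of_lipschitzOn (μ : Measure E) [μ.IsAddHaarMeasure] {f : E → E} {s : Set E}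
    {K : ℝ≥0} (hf : LipschitzOnWith K f s) (hs : μ s = 0) : μ (f '' s) = 0 := by
  let ν : Measure E := μH[(finrank ℝ E : ℝ)]
  have hν : μ ≪ ν ∧ ν ≪ μ :=
    ⟨Measure.absolutelyContinuous_isAddHaarMeasure μ ν,
      Measure.absolutelyContinuous_isAddHaarMeasure ν μ⟩
  refine hν.1 (nonpos_iff_eq_zero.1 ?_)
  calc ν (f '' s) ≤ (K : ℝ≥0∞) ^ (finrank ℝ E : ℝ) * ν s :=
        hf.hausdorffMeasure_image_le (Nat.cast_nonneg _)
    _ = 0 := by rw [hν.2 hs, mul_zero]

lemma exists_near_of_density_one (μ : Measure E) [μ.IsAddHaarMeasure] {s : Set E} {x : E}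
    (h : Tendsto (fun r => μ (s ∩ closedBall x r) / μ (closedBall x r)) (𝓝[>] 0) (𝓝 1))
    {ε : ℝ} (hε : 0 < ε) :
    ∀ᶠ z in 𝓝 x, ∃ y ∈ s, dist z y ≤ ε * dist z x ∨ z = x := by
  obtain ⟨t, -, htf, hcov⟩ :=
    finite_cover_balls_of_compact (isCompact_closedBall (0 : E) 1) (half_pos hε)
  have hev : ∀ᶠ r in 𝓝[>] (0 : ℝ), ∀ a ∈ t,
      (s ∩ ({x} + r • closedBall a (ε / 2))).Nonempty :=
    htf.eventually_all.2 fun a _ => Measure.eventually_nonempty_inter_smul_of_density_one μ s x h _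
      measurableSet_closedBall (measure_closedBall_pos μ a (half_pos hε)).ne'
  obtain ⟨δ, hδ, hsub⟩ := mem_nhdsGT_iff_exists_Ioo_subset.1 hev
  obtain ⟨y₀, hy₀⟩ : s.Nonempty := by
    by_contra hne
    rw [not_nonempty_iff_eq_empty] at hne
    simp only [hne, empty_inter, measure_empty, ENNReal.zero_div] at h
    exact zero_ne_one (tendsto_nhds_unique tendsto_const_nhds h)
  filter_upwards [ball_mem_nhds x (mem_Ioi.1 hδ)] with z hz
  rcases eq_or_ne z x with hzx | hzx
  · exact ⟨y₀, hy₀, Or.inr hzx⟩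
  have hr : 0 < ‖z - x‖ := norm_pos_iff.2 (sub_ne_zero.2 hzx)
  obtain ⟨a, hat, ha⟩ : ∃ a ∈ t, ‖z - x‖⁻¹ • (z - x) ∈ ball a (ε / 2) := by
    have h1 : ‖z - x‖⁻¹ • (z - x) ∈ closedBall (0 : E) 1 := by
      rw [mem_closedBall, dist_zero_right, norm_smul, norm_inv, norm_norm,
        inv_mul_cancel₀ hr.ne']
    obtain ⟨a, ha, ha'⟩ := mem_iUnion₂.1 (hcov h1)
    exact ⟨a, ha, ha'⟩
  obtain ⟨y, hys, hy⟩ := hsub ⟨hr, by rw [← dist_eq_norm]; exact hz⟩ a hat
  rw [singleton_add, mem_image] at hy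
  obtain ⟨v, hv, rfl⟩ := hy
  obtain ⟨b, hb, rfl⟩ := mem_smul_set.1 hv
  refine ⟨_, hys, Or.inl ?_⟩
  have : z - (x + ‖z - x‖ • b) = ‖z - x‖ • (‖z - x‖⁻¹ • (z - x) - b) := by
    rw [smul_sub, smul_inv_smul₀ hr.ne']; abel
  rw [dist_eq_norm, this, norm_smul, norm_norm, dist_eq_norm, mul_comm]
  gcongr
  rw [← dist_eq_norm]
  linarith [dist_triangle (‖z - x‖⁻¹ • (z - x)) a b, mem_ball.1 ha, mem_closedBall'.1 hb]

/-- Stepanov: at a density point of a set where `f` is uniformly pointwise Lipschitz, a derivative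
within the set is a derivative. -/
lemma hasFDerivAt_of_density_one (μ : Measure E) [μ.IsAddHaarMeasure] {s : Set E} {x : E}
    (hx : x ∈ s)
    (h : Tendsto (fun r => μ (s ∩ closedBall x r) / μ (closedBall x r)) (𝓝[>] 0) (𝓝 1))
    {f : E → E} {f' : E →L[ℝ] E} (hf : HasFDerivWithinAt f f' s x) {m ρ : ℝ} (hm : 0 ≤ m)
    (hρ : 0 < ρ) (hb : ∀ y ∈ s, ∀ z, dist z y ≤ ρ → ‖f z - f y‖ ≤ m * ‖z - y‖) :
    HasFDerivAt f f' x := by
  rw [hasFDerivAt_iff_isLittleO, Asymptotics.isLittleO_iff]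
  intro c hc
  set A : ℝ := m + ‖f'‖ + 2
  have hA : 0 < A := by positivity
  set ε : ℝ := min 1 (c / (2 * A)) with hεdef
  have hε : 0 < ε := lt_min one_pos (by positivity)
  have e1 := exists_near_of_density_one μ h hε
  obtain ⟨δ, hδ, e2⟩ := Metric.eventually_nhds_iff.1
    (eventually_nhdsWithin_iff.1 ((hasFDerivWithinAt_iff_isLittleO.1 hf).def
      (show (0 : ℝ) < c / 4 by linarith)))
  have e3 : ∀ᶠ z in 𝓝 x, dist z x < min (δ / 2) ρ :=
    Metric.ball_mem_nhds x (by positivity)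
  filter_upwards [e1, e3] with z ⟨y, hy, hzy⟩ hz
  rcases eq_or_ne z x with rfl | hzx
  · simp
  replace hzy := hzy.resolve_right hzx
  rw [dist_eq_norm, dist_eq_norm] at hzy
  have hε1 : ε ≤ 1 := min_le_left _ _
  have hεA : ε * A ≤ c / 2 := by
    calc ε * A ≤ c / (2 * A) * A := by gcongr; exact min_le_right _ _
      _ = c / 2 := by field_simp
  have hn := norm_nonneg (z - x)
  have hyx : ‖y - x‖ ≤ 2 * ‖z - x‖ := by
    have : ‖y - x‖ ≤ ‖z - y‖ + ‖z - x‖ := by
      rw [← norm_sub_rev y z]; exact norm_sub_le_norm_sub_add_norm_sub y z x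
    nlinarith
  have h1 : ‖f z - f y‖ ≤ m * ‖z - y‖ := hb y hy z (by
    rw [dist_eq_norm]
    have : ‖z - y‖ ≤ ‖z - x‖ := by nlinarith
    have := lt_min_iff.1 hz
    rw [dist_eq_norm] at this
    linarith)
  have h2 : ‖f y - f x - f' (y - x)‖ ≤ c / 4 * ‖y - x‖ := e2 (by
    have := lt_min_iff.1 hz
    rw [dist_eq_norm] at this ⊢
    linarith) hy
  have h3 : f z - f x - f' (z - x) = (f z - f y) + (f y - f x - f' (y - x)) - f' (z - y) := by
    simp only [map_sub]; abel
  rw [h3]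
  calc ‖(f z - f y) + (f y - f x - f' (y - x)) - f' (z - y)‖
      ≤ ‖f z - f y‖ + ‖f y - f x - f' (y - x)‖ + ‖f' (z - y)‖ :=
        (norm_sub_le _ _).trans (by gcongr; exact norm_add_le _ _)
    _ ≤ m * ‖z - y‖ + c / 4 * (2 * ‖z - x‖) + ‖f'‖ * ‖z - y‖ := by
        gcongr
        · exact h2.trans (by gcongr)
        · exact f'.le_opNorm _
    _ ≤ A * (ε * ‖z - x‖) + c / 2 * ‖z - x‖ := by
        have h4 : (m + ‖f'‖) * ‖z - y‖ ≤ A * (ε * ‖z - x‖) := by gcongr; linarith
        linarith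
    _ ≤ c * ‖z - x‖ := by
        have := mul_le_mul_of_nonneg_right hεA hn
        linarith

/-- For a continuous pointwise Lipschitz map, almost every value has only regular preimages. -/
theorem ae_regular_values (μ : Measure E) [μ.IsAddHaarMeasure] {c : E} {R : ℝ} {f : E → E}
    (hf : ContinuousOn f (closedBall c R))
    (hl : ∀ x ∈ ball c R, (fun z => f z - f x) =O[𝓝 x] fun z => z - x) :
    ∀ᵐ y ∂μ, ∀ x ∈ ball c R, f x = y → RegularAt f x := by
  let S : ℕ → Set E := fun m => {x ∈ closedBall c (R - 1 / ((m : ℝ) + 1)) |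
    ∀ z ∈ closedBall c R, dist z x < 1 / ((m : ℝ) + 1) → ‖f z - f x‖ ≤ m * ‖z - x‖}
  have hsub : ∀ m x, x ∈ S m → ∀ z, dist z x ≤ 1 / ((m : ℝ) + 1) → z ∈ closedBall c R :=
    fun m x hx z hz => mem_closedBall.2 (by
      linarith [dist_triangle z x c, mem_closedBall.1 hx.1])
  have hSB : ∀ m, S m ⊆ closedBall c R := fun m x hx => hsub m x hx x (by simp; positivity)
  have hS : ∀ x ∈ ball c R, ∃ m, x ∈ S m := by
    intro x hx
    obtain ⟨C, hC⟩ := (hl x hx).bound
    obtain ⟨δ, hδ, hb⟩ := Metric.eventually_nhds_iff.1 hC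
    obtain ⟨m₁, hm₁⟩ := exists_nat_gt C
    obtain ⟨m₂, hm₂⟩ := exists_nat_one_div_lt
      (lt_min hδ (sub_pos.2 (mem_ball.1 hx)))
    refine ⟨max m₁ m₂, ?_, fun z _ hz => ?_⟩
    · have : 1 / ((max m₁ m₂ : ℕ) + 1 : ℝ) ≤ 1 / ((m₂ : ℝ) + 1) := by
        gcongr; exact le_max_right _ _
      have := (lt_min_iff.1 hm₂).2
      rw [mem_closedBall]
      linarith
    · have h1 : 1 / ((max m₁ m₂ : ℕ) + 1 : ℝ) ≤ 1 / ((m₂ : ℝ) + 1) := by
        gcongr; exact le_max_right _ _
      have h2 := (lt_min_iff.1 hm₂).1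
      refine (hb (show dist z x < δ by linarith)).trans ?_
      gcongr
      exact hm₁.le.trans (by exact_mod_cast le_max_left _ _)
  let N : ℕ → Set E := fun m => {x ∈ S m | ¬ DifferentiableAt ℝ f x}
  have hN : ∀ m (a : E), μ (f '' (N m ∩ closedBall a (1 / (3 * ((m : ℝ) + 1))))) = 0 := by
    intro m a
    set T := S m ∩ closedBall a (1 / (3 * ((m : ℝ) + 1))) with hT
    have hlip : LipschitzOnWith (m : ℝ≥0) f T := by
      refine LipschitzOnWith.of_dist_le_mul fun x hx y hy => ?_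
      have hd : dist x y < 1 / ((m : ℝ) + 1) := by
        have e : 1 / (3 * ((m : ℝ) + 1)) = 1 / ((m : ℝ) + 1) / 3 := by
          rw [div_div]; ring
        have : 0 < 1 / ((m : ℝ) + 1) := by positivity
        have := mem_closedBall.1 hx.2
        have := mem_closedBall.1 hy.2
        linarith [dist_triangle_right x y a]
      simpa [dist_eq_norm] using hy.1.2 x (hsub m y hy.1 x hd.le) hd
    refine image_null_of_lipschitzOn μ (K := (m : ℝ≥0)) (hlip.mono ?_) ?_
    · exact fun x hx => ⟨hx.1.1, hx.2⟩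
    have hmeas : MeasurableSet T := by
      refine (IsClosed.inter ?_ isClosed_closedBall).measurableSet
      refine isClosed_of_closure_subset fun x hx => ?_
      obtain ⟨u, hu, hlim⟩ := mem_closure_iff_seq_limit.1 hx
      have h1 : x ∈ closedBall c (R - 1 / ((m : ℝ) + 1)) :=
        isClosed_closedBall.mem_of_tendsto hlim (Eventually.of_forall fun n => (hu n).1)
      refine ⟨h1, fun z hz hzx => ?_⟩
      have hmemB : ∀ k, u k ∈ closedBall c R := fun k => hSB m (hu k)
      have hxB : x ∈ closedBall c R :=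
        isClosed_closedBall.mem_of_tendsto hlim (Eventually.of_forall hmemB)
      have hfu : Tendsto (fun k => f (u k)) atTop (𝓝 (f x)) :=
        (hf x hxB).tendsto.comp
          (tendsto_nhdsWithin_iff.2 ⟨hlim, Eventually.of_forall hmemB⟩)
      have hev : ∀ᶠ k in atTop, ‖f z - f (u k)‖ ≤ m * ‖z - u k‖ := by
        filter_upwards [(tendsto_const_nhds.dist hlim).eventually_lt_const hzx] with k hk
        exact (hu k).2 z hz hk
      exact le_of_tendsto_of_tendsto ((tendsto_const_nhds.sub hfu).norm)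
        ((tendsto_const_nhds.sub hlim).norm.const_mul _) hev
    have hz : ∀ᵐ x ∂μ, x ∈ T → DifferentiableAt ℝ f x := by
      have h2 := (ae_restrict_iff' hmeas).1
        (Besicovitch.ae_tendsto_measure_inter_div μ T)
      filter_upwards [hlip.ae_differentiableWithinAt_of_mem (μ := μ), h2] with x hd hdens hx
      exact (hasFDerivAt_of_density_one μ hx (hdens hx) (hd hx).hasFDerivWithinAt
        (Nat.cast_nonneg m) (show (0 : ℝ) < 1 / ((m : ℝ) + 1) / 2 by positivity)
        fun y hy z hz' => hy.1.2 z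
          (hsub m y hy.1 z (hz'.trans (half_le_self (by positivity))))
          (lt_of_le_of_lt hz' (half_lt_self (by positivity)))).differentiableAt
    refine measure_mono_null ?_ (ae_iff.1 hz)
    intro x hx h
    exact hx.1.2 (h ⟨hx.1.1, hx.2⟩)
  have hNm : ∀ m, μ (f '' N m) = 0 := by
    intro m
    obtain ⟨t, htc, htd⟩ := TopologicalSpace.exists_countable_dense E
    have hcov : N m ⊆ ⋃ a ∈ t, N m ∩ closedBall a (1 / (3 * ((m : ℝ) + 1))) := by
      intro x hx
      obtain ⟨a, hat, ha⟩ := htd.exists_dist_lt x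
        (show (0 : ℝ) < 1 / (3 * ((m : ℝ) + 1)) by positivity)
      exact mem_biUnion hat ⟨hx, mem_closedBall.2 ha.le⟩
    refine measure_mono_null (image_mono hcov) ?_
    rw [image_iUnion₂]
    exact (measure_biUnion_null_iff htc).2 fun a _ => hN m a
  let D : Set E := {x | DifferentiableAt ℝ f x ∧ (fderiv ℝ f x).det = 0}
  have hD : μ (f '' D) = 0 :=
    addHaar_image_eq_zero_of_det_fderivWithin_eq_zero μ
      (fun x hx => hx.1.hasFDerivAt.hasFDerivWithinAt) fun x hx => hx.2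
  filter_upwards [measure_eq_zero_iff_ae_notMem.1 (measure_iUnion_null hNm),
    measure_eq_zero_iff_ae_notMem.1 hD] with y hy hy' x hx hxy
  have hd : DifferentiableAt ℝ f x := by
    by_contra hd
    obtain ⟨m, hm⟩ := hS x hx
    exact hy (mem_iUnion.2 ⟨m, x, ⟨hm, hd⟩, hxy⟩)
  have hdet : (fderiv ℝ f x).det ≠ 0 := fun h => hy' ⟨x, ⟨hd, h⟩, hxy⟩
  refine ⟨(fderiv ℝ f x).toContinuousLinearEquivOfDetNeZero hdet, ?_⟩
  simpa using hd.hasFDerivAt

lemma finite_regular_fiber {c : E} {R : ℝ} {f : E → E} (hf : ContinuousOn f (closedBall c R))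
    (y : E) (hreg : ∀ x ∈ closedBall c R, f x = y → RegularAt f x) :
    {x ∈ closedBall c R | f x = y}.Finite := by
  have hcl : IsCompact {x ∈ closedBall c R | f x = y} :=
    (isCompact_closedBall c R).of_isClosed_subset
      (hf.preimage_isClosed_of_isClosed isClosed_closedBall isClosed_singleton) inter_subset_left
  refine hcl.finite (isDiscrete_iff_forall_mem_exists_isOpen.2 fun x hx => ?_)
  obtain ⟨L, hL⟩ := hreg x hx.1 hx.2
  have hev := hL.eventually_ne (c := y) ⟨_, L.antilipschitz⟩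
  obtain ⟨U, hU, hUo, hxU⟩ := _root_.mem_nhds_iff.1 (eventually_nhdsWithin_iff.1 hev)
  refine ⟨U, hUo, Set.ext fun z => ⟨fun hz => ?_, fun hz => ?_⟩⟩
  · by_contra hne
    exact hU hz.1 hne hz.2.2
  · rw [mem_singleton_iff] at hz
    exact hz ▸ ⟨hxU, hx⟩

end

end Vale.Agent.P228
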